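import Vale.Agent.P368.Tens
import Vale.Agent.P368.Supp

/-! Piece S: sector lemma and locality at depth 0. -/

open Matrix
open scoped Matrix.Norms.L2Operator

namespace Vale.Agent.P368

variable {ι : Type*} [Fintype ι] [DecidableEq ι]

/-- projector on weight `≤ l` -/
noncomputable def Ple (T : Finset ι) (l : ℝ) : Op ι :=
  Matrix.diagonal fun x => if (wt T x : ℝ) ≤ l then 1 else 0

/-- number of subsets of `T` with at most `m` elements -/
theorem card_small_subsets {ι : Type*} [DecidableEq ι] (T : Finset ι) (m : ℕ) :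
    (T.powerset.filter fun W => W.card ≤ m).card ≤ (T.card + 1) ^ m := by
  induction m with
  | zero =>
    have : (T.powerset.filter fun W => W.card ≤ 0) ⊆ {∅} := by
      intro W hW
      rw [Finset.mem_filter] at hW
      rw [Finset.mem_singleton, ← Finset.card_eq_zero]
      omega
    simpa using Finset.card_le_card this
  | succ m ih =>
    have hsub : (T.powerset.filter fun W => W.card ≤ m + 1) ⊆
        (T.powerset.filter fun W => W.card ≤ m) ∪
          ((T ×ˢ (T.powerset.filter fun W => W.card ≤ m)).image fun p => insert p.1 p.2) := by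
      intro W hW
      rw [Finset.mem_filter, Finset.mem_powerset] at hW
      obtain ⟨hWT, hc⟩ := hW
      rw [Finset.mem_union]
      by_cases h : W.card ≤ m
      · left
        rw [Finset.mem_filter, Finset.mem_powerset]
        exact ⟨hWT, h⟩
      · right
        have hne : W.Nonempty := by
          rw [← Finset.card_pos]; omega
        obtain ⟨a, ha⟩ := hne
        rw [Finset.mem_image]
        refine ⟨(a, W.erase a), ?_, Finset.insert_erase ha⟩
        rw [Finset.mem_product, Finset.mem_filter, Finset.mem_powerset]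
        refine ⟨hWT ha, (Finset.erase_subset _ _).trans hWT, ?_⟩
        rw [Finset.card_erase_of_mem ha]
        omega
    calc (T.powerset.filter fun W => W.card ≤ m + 1).card
        ≤ _ := Finset.card_le_card hsub
      _ ≤ (T.powerset.filter fun W => W.card ≤ m).card +
          ((T ×ˢ (T.powerset.filter fun W => W.card ≤ m)).image fun p => insert p.1 p.2).card :=
          Finset.card_union_le _ _
      _ ≤ (T.powerset.filter fun W => W.card ≤ m).card +
          T.card * (T.powerset.filter fun W => W.card ≤ m).card := by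
          gcongr
          exact Finset.card_image_le.trans (Finset.card_product _ _).le
      _ = (T.card + 1) * (T.powerset.filter fun W => W.card ≤ m).card := by ring
      _ ≤ (T.card + 1) * (T.card + 1) ^ m := by gcongr
      _ = (T.card + 1) ^ (m + 1) := by ring

theorem card_small_subsets_le (T : Finset ι) (Q l : ℝ) (hQ : (Fintype.card ι : ℝ) + 1 ≤ Q)
    (hl : 0 ≤ l) :
    ((T.powerset.filter fun W => (W.card : ℝ) ≤ l).card : ℝ) ≤ Q ^ l := by
  have h1 : (T.powerset.filter fun W => (W.card : ℝ) ≤ l) =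
      (T.powerset.filter fun W => W.card ≤ ⌊l⌋₊) := by
    ext W
    simp only [Finset.mem_filter]
    rw [Nat.le_floor_iff hl]
  rw [h1]
  have h2 := card_small_subsets T ⌊l⌋₊
  have hT : (T.card : ℝ) ≤ Fintype.card ι := by exact_mod_cast Finset.card_le_univ T
  have hQ1 : (1 : ℝ) ≤ Q := by
    have : (0 : ℝ) ≤ (Fintype.card ι : ℝ) := Nat.cast_nonneg _
    linarith
  calc ((T.powerset.filter fun W => W.card ≤ ⌊l⌋₊).card : ℝ)
      ≤ ((T.card : ℝ) + 1) ^ ⌊l⌋₊ := by exact_mod_cast h2
    _ ≤ Q ^ ⌊l⌋₊ := by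
        gcongr
        linarith
    _ = Q ^ ((⌊l⌋₊ : ℕ) : ℝ) := (Real.rpow_natCast _ _).symm
    _ ≤ Q ^ l := Real.rpow_le_rpow_of_exponent_le hQ1 (Nat.floor_le hl)

/-- the assignment `x` with the bits of `W` flipped -/
def flipBits (W : Finset ι) (x : ι → Bool) : ι → Bool := fun i => if i ∈ W then !(x i) else x i

theorem wt_flipBits_eq_zero_iff {ι : Type*} [DecidableEq ι] {T W : Finset ι} (hW : W ⊆ T) (x : ι → Bool) :
    wt T (flipBits W x) = 0 ↔ (T.filter fun i => x i = true) = W := by
  rw [wt, Finset.card_eq_zero, Finset.filter_eq_empty_iff]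
  constructor
  · intro h
    ext i
    rw [Finset.mem_filter]
    constructor
    · rintro ⟨hi, hx⟩
      by_contra hiW
      have := h hi
      simp [flipBits, hiW, hx] at this
    · intro hiW
      refine ⟨hW hiW, ?_⟩
      have := h (hW hiW)
      simpa [flipBits, hiW] using this
  · intro h i hi
    have h1 : i ∈ W ↔ x i = true := by
      rw [← h, Finset.mem_filter]
      exact ⟨fun h => h.2, fun h => ⟨hi, h⟩⟩
    by_cases hiW : i ∈ W
    · simp [flipBits, hiW, h1.1 hiW]
    · simp only [flipBits, hiW, if_false]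
      exact fun h2 => hiW (h1.2 h2)

theorem wt_flipBits_le {ι : Type*} [DecidableEq ι] (T W : Finset ι) (x : ι → Bool) :
    wt T (flipBits W x) ≤ wt T x + W.card := by
  rw [wt, wt]
  refine (Finset.card_le_card (t := (T.filter fun i => x i = true) ∪ W) ?_).trans
    (Finset.card_union_le _ _)
  intro i hi
  rw [Finset.mem_filter] at hi
  rw [Finset.mem_union]
  by_cases hiW : i ∈ W
  · exact Or.inr hiW
  · left
    rw [Finset.mem_filter]
    refine ⟨hi.1, ?_⟩
    have := hi.2
    simpa [flipBits, hiW] using this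

/-- decomposition of `[N_T ≤ l]` into flipped copies of `E_T` -/
theorem Ple_eq_sum (T : Finset ι) (l : ℝ) :
    (Ple T l : Op ι) = ∑ W ∈ T.powerset.filter (fun W => (W.card : ℝ) ≤ l),
      tens (flipV W) * Ez T * tens (flipV W) := by
  have h1 : ∀ W ∈ T.powerset.filter (fun W => (W.card : ℝ) ≤ l),
      tens (flipV W) * Ez T * tens (flipV W) =
        (Matrix.diagonal fun x => if (T.filter fun i => x i = true) = W then 1 else 0 : Op ι) := by
    intro W hW
    rw [Finset.mem_filter, Finset.mem_powerset] at hW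
    rw [Ez, flipV_diag]
    congr 1
    funext x
    have : wt T (fun i => if i ∈ W then !(x i) else x i) = 0 ↔
        (T.filter fun i => x i = true) = W := wt_flipBits_eq_zero_iff hW.1 x
    by_cases h : (T.filter fun i => x i = true) = W
    · rw [if_pos h, if_pos (this.2 h)]
    · rw [if_neg h, if_neg fun h' => h (this.1 h')]
  rw [Finset.sum_congr rfl h1]
  ext x z
  rw [Matrix.sum_apply]
  by_cases hxz : x = z
  · subst hxz
    simp only [Ple, Matrix.diagonal_apply_eq]
    rw [Finset.sum_ite_eq]
    have hm : (T.filter fun i => x i = true) ∈ T.powerset.filter (fun W => (W.card : ℝ) ≤ l) ↔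
        (wt T x : ℝ) ≤ l := by
      rw [Finset.mem_filter, Finset.mem_powerset, wt]
      exact ⟨fun h => h.2, fun h => ⟨Finset.filter_subset _ _, h⟩⟩
    by_cases h : (wt T x : ℝ) ≤ l
    · rw [if_pos h, if_pos (hm.2 h)]
    · rw [if_neg h, if_neg fun h' => h (hm.1 h')]
  · simp [Ple, Matrix.diagonal_apply_ne _ hxz]

theorem norm_tens_flipV_le (W : Finset ι) : ‖(tens (flipV W) : Op ι)‖ ≤ 1 :=
  (Circ.base _ (flipV_isTU W)).norm_le

/-- a flip of few bits moves `[N_T ≥ l + y]` inside `[N_T ≥ y]` -/
theorem flip_Pge_flip (T W : Finset ι) (l y : ℝ) (hW : (W.card : ℝ) ≤ l) :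
    tens (flipV W) * Pge T (l + y) * tens (flipV W) * Pge T y =
      tens (flipV W) * Pge T (l + y) * tens (flipV W) := by
  rw [Pge, flipV_diag, Pge, Matrix.diagonal_mul_diagonal]
  congr 1
  funext x
  by_cases h : l + y ≤ (wt T (fun i => if i ∈ W then !(x i) else x i) : ℝ)
  · rw [if_pos h]
    have h1 : (wt T (fun i => if i ∈ W then !(x i) else x i) : ℝ) ≤ wt T x + W.card := by
      exact_mod_cast wt_flipBits_le T W x
    rw [if_pos (by linarith), mul_one]
  · rw [if_neg h, zero_mul]

theorem norm_le_of_right {A B : Op ι} {c : ℝ} (hA : ‖A‖ ≤ 1) (hB : ‖B‖ ≤ c) : ‖A * B‖ ≤ c := by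
  refine (norm_mul_le A B).trans ?_
  calc ‖A‖ * ‖B‖ ≤ 1 * ‖B‖ := mul_le_mul_of_nonneg_right hA (norm_nonneg B)
    _ = ‖B‖ := one_mul _
    _ ≤ c := hB

theorem norm_le_of_left {A B : Op ι} {c : ℝ} (hA : ‖A‖ ≤ 1) (hB : ‖B‖ ≤ c) : ‖B * A‖ ≤ c := by
  refine (norm_mul_le B A).trans ?_
  calc ‖B‖ * ‖A‖ ≤ ‖B‖ * 1 := mul_le_mul_of_nonneg_left hA (norm_nonneg B)
    _ = ‖B‖ := mul_one _
    _ ≤ c := hB

theorem sector (T : Finset ι) (O : Op ι) (Q l y η : ℝ) (hQ : (Fintype.card ι : ℝ) + 1 ≤ Q)
    (hl : 0 ≤ l) (hη : 0 ≤ η)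
    (h : ∀ W ⊆ T, ‖Pge T y * (tens (flipV W) * O * tens (flipV W)) * Ez T‖ ≤ η) :
    ‖Pge T (l + y) * O * Ple T l‖ ≤ Q ^ l * η := by
  rw [Ple_eq_sum, Finset.mul_sum]
  refine (norm_sum_le _ _).trans ?_
  have h1 : ∀ W ∈ T.powerset.filter (fun W => (W.card : ℝ) ≤ l),
      ‖Pge T (l + y) * O * (tens (flipV W) * Ez T * tens (flipV W))‖ ≤ η := by
    intro W hW
    rw [Finset.mem_filter, Finset.mem_powerset] at hW
    have hs := flipV_sq W
    have e1 : Pge T (l + y) * O * (tens (flipV W) * Ez T * tens (flipV W)) =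
        tens (flipV W) * ((tens (flipV W) * Pge T (l + y) * tens (flipV W)) *
          (Pge T y * (tens (flipV W) * O * tens (flipV W)) * Ez T)) * tens (flipV W) := by
      have e2 : (tens (flipV W) * Pge T (l + y) * tens (flipV W)) *
          (Pge T y * (tens (flipV W) * O * tens (flipV W)) * Ez T) =
          (tens (flipV W) * Pge T (l + y) * tens (flipV W) * Pge T y) *
            ((tens (flipV W) * O * tens (flipV W)) * Ez T) := by
        simp only [mul_assoc]
      rw [e2, flip_Pge_flip T W l y hW.2]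
      have e3 : tens (flipV W) * (tens (flipV W) * Pge T (l + y) * tens (flipV W) *
          (tens (flipV W) * O * tens (flipV W) * Ez T)) * tens (flipV W) =
          (tens (flipV W) * tens (flipV W)) * Pge T (l + y) * (tens (flipV W) * tens (flipV W)) *
            (O * tens (flipV W) * Ez T * tens (flipV W)) := by
        simp only [mul_assoc]
      rw [e3, hs, one_mul, mul_one]
      simp only [mul_assoc]
    rw [e1]
    have hX := norm_tens_flipV_le W
    have hP := norm_Pge_le (ι := ι) T (l + y)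
    refine norm_le_of_left hX (norm_le_of_right hX (norm_le_of_right ?_ (h W hW.1)))
    exact norm_le_of_left hX (norm_le_of_right hX hP)
  calc ∑ W ∈ T.powerset.filter (fun W => (W.card : ℝ) ≤ l),
        ‖Pge T (l + y) * O * (tens (flipV W) * Ez T * tens (flipV W))‖
      ≤ ∑ W ∈ T.powerset.filter (fun W => (W.card : ℝ) ≤ l), η := Finset.sum_le_sum h1
    _ = ((T.powerset.filter fun W => (W.card : ℝ) ≤ l).card : ℝ) * η := by
        rw [Finset.sum_const, nsmul_eq_mul]
    _ ≤ Q ^ l * η := by
        gcongr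
        exact card_small_subsets_le T Q l hQ hl

theorem loc_zero (μ : ℝ) (hμ : 1 < μ) : Loc ι 0 μ := by
  intro V hV T R A hA hA1 y hy1 hy2
  have hexp : (0 : ℝ) ≤ Real.exp (-y / μ) := (Real.exp_pos _).le
  cases hV with
  | base w hw =>
    have hR : (R.card : ℝ) < y := by
      rcases Nat.eq_zero_or_pos R.card with h0 | h0
      · rw [h0]; push_cast; linarith
      · have h1 : (1 : ℝ) ≤ R.card := by exact_mod_cast h0
        nlinarith
    rw [(hA.conj hw).Pge_mul_Ez hR, norm_zero]
    exact hexp

end Vale.Agent.P368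

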