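import Vale.Agent.P368.Tens
import Vale.Agent.P368.Supp
import Vale.Agent.P368.Sector

/-! P368: the step `Loc k, Big k → Loc (k+1)`. -/

open Matrix
open scoped Matrix.Norms.L2Operator

namespace Vale.Agent.P368

variable {ι : Type*} [Fintype ι] [DecidableEq ι]

namespace SuccAux

/-- projector on weight `< l` -/
noncomputable def Plt (T : Finset ι) (l : ℝ) : Op ι :=
  Matrix.diagonal fun x => if (wt T x : ℝ) < l then 1 else 0

theorem Plt_add_Pge (T : Finset ι) (l : ℝ) : (Plt T l : Op ι) + Pge T l = 1 := by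
  rw [Plt, Pge, Matrix.diagonal_add, ← Matrix.diagonal_one]
  congr 1
  funext x
  by_cases h : (wt T x : ℝ) < l
  · simp [h, not_le.2 h]
  · simp [h, not_lt.1 h]

theorem Ple_mul_Plt (T : Finset ι) (l : ℝ) : (Ple T l : Op ι) * Plt T l = Plt T l := by
  rw [Plt, Ple, Matrix.diagonal_mul_diagonal]
  congr 1
  funext x
  by_cases h : (wt T x : ℝ) < l
  · simp [h, h.le]
  · simp [h]

theorem Pge_mul_Pge (T : Finset ι) {l y : ℝ} (h : l ≤ y) :
    (Pge T y : Op ι) * Pge T l = Pge T y := by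
  rw [Pge, Pge, Matrix.diagonal_mul_diagonal]
  congr 1
  funext x
  by_cases hx : y ≤ (wt T x : ℝ)
  · simp [hx, h.trans hx]
  · simp [hx]

theorem norm_diag_le (f : (ι → Bool) → ℂ) (h : ∀ x, ‖f x‖ ≤ 1) :
    ‖(Matrix.diagonal f : Op ι)‖ ≤ 1 := by
  rw [Matrix.l2_opNorm_diagonal]
  exact (pi_norm_le_iff_of_nonneg zero_le_one).2 h

theorem norm_Plt_le (T : Finset ι) (l : ℝ) : ‖(Plt T l : Op ι)‖ ≤ 1 := by
  apply norm_diag_le
  intro x
  split_ifs <;> simp

/-- one composition step -/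
theorem compose (T : Finset ι) (O B : Op ι) {l l' a b : ℝ} (hO : ‖O‖ ≤ 1) (hB : ‖B‖ ≤ 1)
    (h1 : ‖Pge T l' * O * Ple T l‖ ≤ a) (h2 : ‖Pge T l * B‖ ≤ b) :
    ‖Pge T l' * (O * B)‖ ≤ a + b := by
  have e : Pge T l' * (O * B) = (Pge T l' * O * Ple T l) * (Plt T l * B)
      + (Pge T l' * O) * (Pge T l * B) := by
    have h := Plt_add_Pge T l
    calc Pge T l' * (O * B) = Pge T l' * O * ((Plt T l + Pge T l) * B) := by
          rw [h, Matrix.one_mul, Matrix.mul_assoc]
      _ = _ := by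
          rw [Matrix.add_mul, Matrix.mul_add]
          congr 1
          rw [Matrix.mul_assoc (Pge T l' * O) (Ple T l), ← Matrix.mul_assoc (Ple T l),
            Ple_mul_Plt]
  have ha : 0 ≤ a := (norm_nonneg _).trans h1
  rw [e]
  refine (norm_add_le _ _).trans (add_le_add ?_ ?_)
  · refine (Matrix.l2_opNorm_mul _ _).trans ?_
    have h3 : ‖Plt T l * B‖ ≤ 1 := (Matrix.l2_opNorm_mul _ _).trans
      (mul_le_one₀ (norm_Plt_le T l) (norm_nonneg _) hB)
    calc _ ≤ a * 1 := mul_le_mul h1 h3 (norm_nonneg _) ha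
      _ = a := mul_one a
  · refine (Matrix.l2_opNorm_mul _ _).trans ?_
    have h3 : ‖Pge T l' * O‖ ≤ 1 := (Matrix.l2_opNorm_mul _ _).trans
      (mul_le_one₀ (norm_Pge_le T l') (norm_nonneg _) hO)
    calc _ ≤ 1 * b := mul_le_mul h3 h2 (norm_nonneg _) zero_le_one
      _ = b := one_mul b

theorem layer_split (F : Finset (Finset ι)) (p : Finset ι → Prop) [DecidablePred p] :
    (layerCZ F : Op ι) = layerCZ (F.filter p) * layerCZ (F.filter fun S => ¬ p S) := by
  rw [layerCZ, layerCZ, layerCZ, Matrix.diagonal_mul_diagonal]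
  congr 1
  funext x
  exact (Finset.prod_filter_mul_prod_filter_not F p _).symm

theorem layer_sq (F : Finset (Finset ι)) : (layerCZ F : Op ι) * layerCZ F = 1 := by
  rw [layerCZ, Matrix.diagonal_mul_diagonal, ← Matrix.diagonal_one]
  congr 1
  funext x
  rw [← Finset.prod_mul_distrib]
  apply Finset.prod_eq_one
  intro S _
  split_ifs <;> norm_num

theorem layer_conjTranspose (F : Finset (Finset ι)) : (layerCZ F : Op ι)ᴴ = layerCZ F := by
  rw [layerCZ, Matrix.diagonal_conjTranspose]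
  congr 1
  funext x
  simp only [Pi.star_apply, star_prod]
  apply Finset.prod_congr rfl
  intro S _
  split_ifs <;> simp

theorem layer_expand (F : Finset (Finset ι)) :
    (layerCZ F : Op ι) = ∑ G ∈ F.powerset, ((-2 : ℂ) ^ G.card) • nAll (G.biUnion id) := by
  have h : ∀ G : Finset (Finset ι), ((-2 : ℂ) ^ G.card) • (nAll (G.biUnion id) : Op ι)
      = Matrix.diagonal fun x => ∏ S ∈ G, (if ∀ i ∈ S, x i = true then (-2 : ℂ) else 0) := by
    intro G
    rw [nAll, ← Matrix.diagonal_smul]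
    congr 1
    funext x
    rw [Pi.smul_apply, smul_eq_mul]
    by_cases hx : ∀ S ∈ G, ∀ i ∈ S, x i = true
    · rw [if_pos, mul_one, Finset.prod_congr rfl (fun S hS => if_pos (hx S hS)),
        Finset.prod_const]
      intro i hi
      obtain ⟨S, hS, hi⟩ := Finset.mem_biUnion.1 hi
      exact hx S hS i hi
    · rw [if_neg, mul_zero]
      · push Not at hx
        obtain ⟨S, hS, i, hi, hxi⟩ := hx
        symm
        apply Finset.prod_eq_zero hS
        rw [if_neg]
        intro h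
        exact hxi (h i hi)
      · intro h
        apply hx
        intro S hS i hi
        exact h i (Finset.mem_biUnion.2 ⟨S, hS, hi⟩)
  simp_rw [h]
  rw [layerCZ]
  ext x y
  rw [Matrix.sum_apply]
  by_cases hxy : x = y
  · subst hxy
    simp only [Matrix.diagonal_apply_eq]
    rw [← Finset.prod_one_add]
    apply Finset.prod_congr rfl
    intro S _
    split_ifs <;> norm_num
  · simp [Matrix.diagonal_apply_ne _ hxy]

theorem layer_insert {S : Finset ι} {F : Finset (Finset ι)} (h : S ∉ F) :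
    (layerCZ (insert S F) : Op ι) = (1 - (2 : ℂ) • nAll S) * layerCZ F := by
  have e : (1 - (2 : ℂ) • nAll S : Op ι)
      = Matrix.diagonal fun x => if ∀ i ∈ S, x i = true then (-1 : ℂ) else 1 := by
    rw [nAll, ← Matrix.diagonal_smul, ← Matrix.diagonal_one, Matrix.diagonal_sub]
    congr 1
    funext x
    simp only [Pi.smul_apply, smul_eq_mul]
    split_ifs <;> norm_num
  rw [e, layerCZ, layerCZ, Matrix.diagonal_mul_diagonal]
  congr 1
  funext x
  rw [Finset.prod_insert h]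

theorem layer_commute {R : Finset ι} {A : Op ι} (hA : SuppOn R A) (F : Finset (Finset ι))
    (hF : ∀ S ∈ F, Disjoint S R) : Commute A (layerCZ F) := by
  induction F using Finset.induction_on with
  | empty =>
    have : (layerCZ (∅ : Finset (Finset ι)) : Op ι) = 1 := by
      rw [layerCZ, ← Matrix.diagonal_one]
      congr 1
    rw [this]
    exact Commute.one_right A
  | insert S F hS ih =>
    rw [layer_insert hS]
    apply Commute.mul_right
    · apply Commute.sub_right (Commute.one_right A)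
      exact Commute.smul_right (hA.commute_nAll (hF S (Finset.mem_insert_self _ _))) _
    · exact ih fun S' hS' => hF S' (Finset.mem_insert_of_mem hS')

theorem card_meet_le {R : Finset ι} {F : Finset (Finset ι)}
    (hF : (F : Set (Finset ι)).PairwiseDisjoint id) (h : ∀ S ∈ F, ¬ Disjoint S R) :
    F.card ≤ R.card := by
  have h1 : ∀ S ∈ F, 1 ≤ (S ∩ R).card := by
    intro S hS
    rw [Nat.one_le_iff_ne_zero, Ne, Finset.card_eq_zero]
    intro h0
    exact h S hS (Finset.disjoint_iff_inter_eq_empty.2 h0)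
  calc F.card = ∑ S ∈ F, 1 := by simp
    _ ≤ ∑ S ∈ F, (S ∩ R).card := Finset.sum_le_sum h1
    _ = (F.biUnion fun S => S ∩ R).card := by
        rw [Finset.card_biUnion]
        intro S hS S' hS' hne
        exact (hF hS hS' hne).mono Finset.inter_subset_left Finset.inter_subset_left
    _ ≤ R.card := Finset.card_le_card (by
        intro i hi
        obtain ⟨S, _, hi⟩ := Finset.mem_biUnion.1 hi
        exact (Finset.mem_inter.1 hi).2)

theorem loc_sector {k : ℕ} {μ Q : ℝ} (hQ : (Fintype.card ι : ℝ) + 1 ≤ Q) (h1 : Loc ι k μ)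
    {V : Op ι} (hV : Circ k V) {R : Finset ι} {A : Op ι} (hA : SuppOn R A) (hA1 : ‖A‖ ≤ 1)
    (T : Finset ι) {l y : ℝ} (hl : 0 ≤ l) (hy : μ ≤ y) (hyR : μ * R.card ≤ y) :
    ‖Pge T (l + y) * (V * A * Vᴴ) * Ple T l‖ ≤ Q ^ l * Real.exp (-y / μ) := by
  apply sector T _ Q l y _ hQ hl (Real.exp_pos _).le
  intro W _
  have e : tens (flipV W) * (V * A * Vᴴ) * tens (flipV W)
      = (tens (flipV W) * V) * A * (tens (flipV W) * V)ᴴ := by
    rw [Matrix.conjTranspose_mul, flipV_star]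
    simp only [Matrix.mul_assoc]
  rw [e]
  exact h1 _ (hV.tens_mul (flipV_isTU W)) T R A hA hA1 y hy hyR

theorem big_sector {k : ℕ} {b Q : ℝ} (hQ : (Fintype.card ι : ℝ) + 1 ≤ Q) (h1 : Big ι k b)
    {V : Op ι} (hV : Circ k V) (S T : Finset ι) {l y : ℝ} (hl : 0 ≤ l) (hy : b ≤ y) :
    ‖Pge T (l + y) * (V * nAll S * Vᴴ) * Ple T l‖ ≤ Q ^ l * Real.exp (-y / b) := by
  apply sector T _ Q l y _ hQ hl (Real.exp_pos _).le
  intro W _
  have e : tens (flipV W) * (V * nAll S * Vᴴ) * tens (flipV W)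
      = (tens (flipV W) * V * tens (flipV S)) * Ez S *
        (tens (flipV W) * V * tens (flipV S))ᴴ := by
    rw [Matrix.conjTranspose_mul, Matrix.conjTranspose_mul, flipV_star, flipV_star,
      ← flip_Ez_flip]
    simp only [Matrix.mul_assoc]
  rw [e]
  exact h1 _ ((hV.tens_mul (flipV_isTU W)).mul_tens (flipV_isTU S)) T S y hy

theorem big_Ez {k : ℕ} {b : ℝ} (h1 : Big ι k b)
    {V : Op ι} (hV : Circ k V) (S T : Finset ι) {y : ℝ} (hy : b ≤ y) :
    ‖Pge T y * ((V * nAll S * Vᴴ) * Ez T)‖ ≤ Real.exp (-y / b) := by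
  have e : V * nAll S * Vᴴ = (V * tens (flipV S)) * Ez S * (V * tens (flipV S))ᴴ := by
    rw [Matrix.conjTranspose_mul, flipV_star, ← flip_Ez_flip]
    simp only [Matrix.mul_assoc]
  rw [e, ← Matrix.mul_assoc]
  exact h1 _ (hV.mul_tens (flipV_isTU S)) T S y hy

theorem norm_conj_le {k : ℕ} {V A : Op ι} (hV : Circ k V) (hA : ‖A‖ ≤ 1) :
    ‖V * A * Vᴴ‖ ≤ 1 := by
  refine (Matrix.l2_opNorm_mul _ _).trans (mul_le_one₀ ?_ (norm_nonneg _) hV.star.norm_le)
  exact (Matrix.l2_opNorm_mul _ _).trans (mul_le_one₀ hV.norm_le (norm_nonneg _) hA)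

theorem thresholds {μ b L z : ℝ} (hμ : 1 ≤ μ) (hb : 1 ≤ b) (hL0 : 0 ≤ L) (hz : 1 ≤ z) :
    (b * z + μ * (z + b * z * L)) + b * (z + (b * z + μ * (z + b * z * L)) * L)
      ≤ 3 * μ * b ^ 2 * (1 + L) ^ 2 * z := by
  have hz0 : 0 ≤ z := by linarith
  have hμ0 : 0 ≤ μ := by linarith
  have hb0 : 0 ≤ b := by linarith
  have e6 : 0 ≤ z * μ * b ^ 2 := by positivity
  have h3 : b * z ≤ z * μ * b := by
    have := mul_le_mul_of_nonneg_left hμ (mul_nonneg hz0 hb0)
    linarith
  have h4 : μ * z ≤ z * μ * b := by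
    have := mul_le_mul_of_nonneg_left hb (mul_nonneg hz0 hμ0)
    linarith
  have e1 : b * z + μ * (z + b * z * L) ≤ z * μ * b * (2 + L) := by linarith
  have e3 : 1 + b * L ≤ b * (1 + L) := by linarith
  have e4 : b * z ≤ z * μ * b ^ 2 := by
    have := mul_le_mul_of_nonneg_left (one_le_mul_of_one_le_of_one_le hμ hb) (mul_nonneg hz0 hb0)
    linarith
  have e0 : 0 ≤ b * z + μ * (z + b * z * L) := by positivity
  have e5 : (b * z + μ * (z + b * z * L)) * (1 + b * L) ≤
      (z * μ * b * (2 + L)) * (b * (1 + L)) :=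
    mul_le_mul e1 e3 (by positivity) (by positivity)
  have h7 := mul_nonneg e6 hL0
  have h8 := mul_nonneg h7 hL0
  linarith

/-- the bound of one term of the expansion of the last layer -/
theorem term_bound {k : ℕ} {μ b Q : ℝ} (hQ : (Fintype.card ι : ℝ) + 1 ≤ Q) (hμ : 1 ≤ μ)
    (hb : 1 ≤ b) (h1 : Loc ι k μ) (h2 : Big ι k b) {V : Op ι} (hV : Circ k V)
    {R : Finset ι} {A : Op ι} (hA : SuppOn R A) (hA1 : ‖A‖ ≤ 1) (T U1 U2 : Finset ι)
    {z y : ℝ} (hz : 1 ≤ z) (hzR : (R.card : ℝ) ≤ z)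
    (hy : 3 * μ * b ^ 2 * (1 + Real.log Q) ^ 2 * z ≤ y) :
    ‖Pge T y * (V * (nAll U1 * A * nAll U2) * Vᴴ) * Ez T‖ ≤ 3 * Real.exp (-z) := by
  have hQ1 : 1 ≤ Q := by
    have : (0 : ℝ) ≤ Fintype.card ι := Nat.cast_nonneg _
    linarith
  have hQ0 : 0 < Q := by linarith
  set L := Real.log Q with hL
  have hL0 : 0 ≤ L := Real.log_nonneg hQ1
  have hrpow : ∀ t : ℝ, Q ^ t = Real.exp (t * L) := by
    intro t
    rw [Real.rpow_def_of_pos hQ0, mul_comm]
  have hb0 : 0 < b := by linarith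
  have hμ0 : 0 < μ := by linarith
  -- thresholds
  set l1 := b * z with hl1
  set l2 := l1 + μ * (z + l1 * L) with hl2
  set l3 := l2 + b * (z + l2 * L) with hl3
  have hl1' : 0 ≤ l1 := by positivity
  have hl2' : 0 ≤ l2 := by positivity
  have hl3y : l3 ≤ y := by
    rw [hl3, hl2, hl1]
    exact (thresholds hμ hb hL0 hz).trans hy
  have hz1 : 1 ≤ z + l1 * L := by linarith [mul_nonneg hl1' hL0]
  have hz2 : 1 ≤ z + l2 * L := by linarith [mul_nonneg hl2' hL0]
  -- the product structure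
  have hu := hV.unitary
  set O1 := V * nAll U1 * Vᴴ with hO1
  set O2 := V * A * Vᴴ with hO2
  set O3 := V * nAll U2 * Vᴴ with hO3
  have e0 : V * (nAll U1 * A * nAll U2) * Vᴴ = O1 * (O2 * O3) := by
    rw [hO1, hO2, hO3]
    have : ∀ X Y Z : Op ι, V * X * Vᴴ * (V * Y * Vᴴ * (V * Z * Vᴴ))
        = V * X * (Vᴴ * V) * Y * (Vᴴ * V) * Z * Vᴴ := by
      intro X Y Z
      simp only [Matrix.mul_assoc]
    rw [this, hu.1]
    simp only [Matrix.mul_one, Matrix.mul_assoc]
  have n1 : ‖O1‖ ≤ 1 := norm_conj_le hV (norm_nAll_le U1)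
  have n2 : ‖O2‖ ≤ 1 := norm_conj_le hV hA1
  have n3 : ‖O3‖ ≤ 1 := norm_conj_le hV (norm_nAll_le U2)
  have nE : ‖(Ez T : Op ι)‖ ≤ 1 := norm_Ez_le T
  have n3E : ‖O3 * Ez T‖ ≤ 1 := (Matrix.l2_opNorm_mul _ _).trans
    (mul_le_one₀ n3 (norm_nonneg _) nE)
  have n23E : ‖O2 * (O3 * Ez T)‖ ≤ 1 := (Matrix.l2_opNorm_mul _ _).trans
    (mul_le_one₀ n2 (norm_nonneg _) n3E)
  have s3 : ‖Pge T l1 * (O3 * Ez T)‖ ≤ Real.exp (-z) := by
    have := big_Ez h2 hV U2 T (y := l1) (le_mul_of_one_le_right hb0.le hz)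
    rwa [hl1, show -(b * z) / b = -z by field_simp] at this
  have s2 : ‖Pge T l2 * O2 * Ple T l1‖ ≤ Real.exp (-z) := by
    have h3 : μ ≤ μ * (z + l1 * L) := le_mul_of_one_le_right hμ0.le hz1
    have h4 : μ * R.card ≤ μ * (z + l1 * L) := by
      have : (R.card : ℝ) ≤ z + l1 * L := by linarith [mul_nonneg hl1' hL0]
      exact mul_le_mul_of_nonneg_left this hμ0.le
    have := loc_sector hQ h1 hV hA hA1 T hl1' h3 h4
    rw [hrpow, ← Real.exp_add, show -(μ * (z + l1 * L)) / μ = -(z + l1 * L) by field_simp] at this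
    rwa [show l1 * L + -(z + l1 * L) = -z by ring] at this
  have s1 : ‖Pge T l3 * O1 * Ple T l2‖ ≤ Real.exp (-z) := by
    have h3 : b ≤ b * (z + l2 * L) := le_mul_of_one_le_right hb0.le hz2
    have := big_sector hQ h2 hV U1 T hl2' h3
    rw [hrpow, ← Real.exp_add, show -(b * (z + l2 * L)) / b = -(z + l2 * L) by field_simp] at this
    rwa [show l2 * L + -(z + l2 * L) = -z by ring] at this
  have c2 := compose T O2 (O3 * Ez T) n2 n3E s2 s3
  have c1 := compose T O1 (O2 * (O3 * Ez T)) n1 n23E s1 c2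
  have e1 : Pge T y * (V * (nAll U1 * A * nAll U2) * Vᴴ) * Ez T
      = Pge T y * (Pge T l3 * (O1 * (O2 * (O3 * Ez T)))) := by
    rw [e0, ← Matrix.mul_assoc (Pge T y) (Pge T l3), Pge_mul_Pge T hl3y]
    simp only [Matrix.mul_assoc]
  rw [e1]
  calc _ ≤ ‖(Pge T y : Op ι)‖ * ‖Pge T l3 * (O1 * (O2 * (O3 * Ez T)))‖ :=
        Matrix.l2_opNorm_mul _ _
    _ ≤ 1 * (Real.exp (-z) + (Real.exp (-z) + Real.exp (-z))) :=
        mul_le_mul (norm_Pge_le T y) c1 (norm_nonneg _) zero_le_one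
    _ = 3 * Real.exp (-z) := by ring

theorem sum_two_pow (F : Finset (Finset ι)) :
    ∑ G ∈ F.powerset, (2 : ℝ) ^ G.card = 3 ^ F.card := by
  have h := Finset.sum_pow_mul_eq_add_pow (2 : ℝ) 1 F
  simp only [one_pow, mul_one] at h
  rw [h]
  norm_num

end SuccAux

open SuccAux in
theorem loc_succ (k : ℕ) (μ l Q : ℝ) (hQ : (Fintype.card ι : ℝ) + 1 ≤ Q) (hμ : 1 ≤ μ) (hl : 1 ≤ l)
    (h1 : Loc ι k μ) (h2 : Big ι k l) :
    Loc ι (k + 1) (24 * μ * l ^ 2 * (1 + Real.log Q) ^ 2) := by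
  intro V0 hV0 T R A hA hA1 y hy hyR
  obtain ⟨V, hV, F, hF, w, hw, rfl⟩ : ∃ V, Circ k V ∧ ∃ F : Finset (Finset ι),
      (F : Set (Finset ι)).PairwiseDisjoint id ∧ ∃ w, IsTU w ∧ V0 = V * layerCZ F * tens w := by
    cases hV0 with
    | step k V hV F hF w hw => exact ⟨V, hV, F, hF, w, hw, rfl⟩
  have hQ1 : 1 ≤ Q := by
    have : (0 : ℝ) ≤ Fintype.card ι := Nat.cast_nonneg _
    linarith
  set L := Real.log Q with hL
  have hL0 : 0 ≤ L := Real.log_nonneg hQ1
  set M := 24 * μ * l ^ 2 * (1 + L) ^ 2 with hM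
  have hM0 : 0 < M := by positivity
  set z := 8 * (y / M) with hz
  have hz8 : 8 ≤ z := by
    have : 1 ≤ y / M := (one_le_div hM0).2 hy
    linarith
  have hzR : 8 * (R.card : ℝ) ≤ z := by
    have : (R.card : ℝ) ≤ y / M := by rw [le_div_iff₀ hM0]; linarith
    linarith
  have hyz : 3 * μ * l ^ 2 * (1 + L) ^ 2 * z ≤ y := by
    rw [hz, hM]
    apply le_of_eq
    field_simp
    ring
  -- reduce to the gates which meet `R`
  set A' := tens w * A * (tens w)ᴴ with hA'
  have hA's : SuppOn R A' := hA.conj hw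
  have hwc : Circ 0 (tens w : Op ι) := Circ.base w hw
  have hA'1 : ‖A'‖ ≤ 1 := norm_conj_le hwc hA1
  set FR := F.filter fun S => ¬ Disjoint S R with hFR
  have hsplit : (layerCZ F : Op ι) = layerCZ (F.filter fun S => Disjoint S R) * layerCZ FR :=
    layer_split F fun S => Disjoint S R
  have hcomm : Commute A' (layerCZ (F.filter fun S => Disjoint S R)) :=
    layer_commute hA's _ fun S hS => (Finset.mem_filter.1 hS).2
  have hdc : (layerCZ (F.filter fun S => Disjoint S R) : Op ι) * layerCZ FR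
      = layerCZ FR * layerCZ (F.filter fun S => Disjoint S R) := by
    simp only [layerCZ, Matrix.diagonal_mul_diagonal, mul_comm]
  have hZ : (layerCZ F : Op ι) * A' * layerCZ F = layerCZ FR * A' * layerCZ FR := by
    have h3 := layer_sq (ι := ι) (F.filter fun S => Disjoint S R)
    set Z0 : Op ι := layerCZ (F.filter fun S => Disjoint S R) with hZ0
    calc (layerCZ F : Op ι) * A' * layerCZ F
        = layerCZ FR * (Z0 * A') * (Z0 * layerCZ FR) := by
          rw [hsplit, ← Matrix.mul_assoc (layerCZ FR) Z0 A', ← hdc]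
      _ = layerCZ FR * (A' * (Z0 * Z0)) * layerCZ FR := by
          rw [← hcomm.eq]
          simp only [Matrix.mul_assoc]
      _ = layerCZ FR * A' * layerCZ FR := by rw [h3, Matrix.mul_one]
  have hcard : FR.card ≤ R.card := by
    apply card_meet_le
    · exact hF.subset (by
        intro S hS
        exact (Finset.mem_filter.1 hS).1)
    · intro S hS
      exact (Finset.mem_filter.1 hS).2
  have e0 : V * layerCZ F * tens w * A * (V * layerCZ F * tens w)ᴴ
      = ∑ G1 ∈ FR.powerset, ∑ G2 ∈ FR.powerset, ((-2 : ℂ) ^ G1.card * (-2 : ℂ) ^ G2.card) •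
        (V * (nAll (G1.biUnion id) * A' * nAll (G2.biUnion id)) * Vᴴ) := by
    calc V * layerCZ F * tens w * A * (V * layerCZ F * tens w)ᴴ
        = V * (layerCZ F * A' * layerCZ F) * Vᴴ := by
          rw [Matrix.conjTranspose_mul, Matrix.conjTranspose_mul, layer_conjTranspose, hA']
          simp only [Matrix.mul_assoc]
      _ = V * (layerCZ FR * A' * layerCZ FR) * Vᴴ := by rw [hZ]
      _ = _ := by
          rw [layer_expand FR]
          simp only [Finset.sum_mul, Finset.mul_sum, Matrix.smul_mul, Matrix.mul_smul, smul_smul]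
          rw [Finset.sum_comm]
          refine Finset.sum_congr rfl fun G1 _ => Finset.sum_congr rfl fun G2 _ => ?_
          rw [mul_comm]
  rw [e0]
  simp only [Finset.mul_sum, Finset.sum_mul, Matrix.mul_smul, Matrix.smul_mul]
  have hterm : ∀ G1 ∈ FR.powerset, ∀ G2 ∈ FR.powerset,
      ‖((-2 : ℂ) ^ G1.card * (-2 : ℂ) ^ G2.card) •
        (Pge T y * (V * (nAll (G1.biUnion id) * A' * nAll (G2.biUnion id)) * Vᴴ) * Ez T)‖
      ≤ (2 : ℝ) ^ G1.card * (2 : ℝ) ^ G2.card * (3 * Real.exp (-z)) := by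
    intro G1 _ G2 _
    rw [norm_smul]
    have : ‖((-2 : ℂ) ^ G1.card * (-2 : ℂ) ^ G2.card)‖ = (2 : ℝ) ^ G1.card * (2 : ℝ) ^ G2.card := by
      simp
    rw [this]
    apply mul_le_mul_of_nonneg_left _ (by positivity)
    exact term_bound hQ hμ hl h1 h2 hV hA's hA'1 T _ _ (by linarith)
      (by have : (0 : ℝ) ≤ R.card := Nat.cast_nonneg _
          linarith) hyz
  calc _ ≤ ∑ G1 ∈ FR.powerset, ∑ G2 ∈ FR.powerset,
        (2 : ℝ) ^ G1.card * (2 : ℝ) ^ G2.card * (3 * Real.exp (-z)) := by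
        refine (norm_sum_le _ _).trans (Finset.sum_le_sum fun G1 hG1 => ?_)
        exact (norm_sum_le _ _).trans (Finset.sum_le_sum fun G2 hG2 => hterm G1 hG1 G2 hG2)
    _ = (3 : ℝ) ^ FR.card * 3 ^ FR.card * (3 * Real.exp (-z)) := by
        rw [← sum_two_pow, Finset.sum_mul_sum, Finset.sum_mul]
        refine Finset.sum_congr rfl fun G1 _ => ?_
        rw [Finset.sum_mul]
    _ ≤ Real.exp (3 * R.card) * (Real.exp 3 * Real.exp (-z)) := by
        have e1 : (0 : ℝ) < Real.exp (-z) := Real.exp_pos _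
        have e3 : (9 : ℝ) ≤ Real.exp 3 := by
          have h4 : (2.7 : ℝ) < Real.exp 1 := by
            have := Real.exp_one_gt_d9
            linarith
          have h5 : Real.exp 3 = Real.exp 1 ^ 3 := by
            rw [← Real.exp_nat_mul]
            norm_num
          rw [h5]
          calc (9 : ℝ) ≤ 2.7 ^ 3 := by norm_num
            _ ≤ Real.exp 1 ^ 3 := pow_le_pow_left₀ (by norm_num) h4.le 3
        have e2 : (3 : ℝ) ^ FR.card * 3 ^ FR.card ≤ Real.exp (3 * R.card) := by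
          rw [← mul_pow, show (3 : ℝ) * R.card = R.card * 3 by ring, Real.exp_nat_mul]
          calc ((3 : ℝ) * 3) ^ FR.card ≤ (3 * 3) ^ R.card :=
                pow_le_pow_right₀ (by norm_num) hcard
            _ ≤ Real.exp 3 ^ R.card := pow_le_pow_left₀ (by norm_num) (by linarith) _
        exact mul_le_mul e2 (mul_le_mul_of_nonneg_right (by linarith) e1.le) (by positivity)
          (by positivity)
    _ = Real.exp (3 * R.card + 3 - z) := by
        rw [← Real.exp_add, ← Real.exp_add]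
        ring_nf
    _ ≤ Real.exp (-y / M) := by
        apply Real.exp_le_exp.2
        have : -y / M = -(z / 8) := by
          rw [hz]
          ring
        rw [this]
        linarith

end Vale.Agent.P368

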