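import Vale.Agent.P368.BigOfLoc
import Vale.Agent.P368.Succ
import Vale.Agent.P368.Sector

/-!
P368: asymptotics (piece A).
-/

open Matrix Filter
open scoped Matrix.Norms.L2Operator

namespace Vale.Agent.P368

theorem Loc.mono {ι : Type*} [Fintype ι] [DecidableEq ι] {k : ℕ} {μ μ' : ℝ} (h : Loc ι k μ)
    (hμ : 0 < μ) (hle : μ ≤ μ') : Loc ι k μ' := by
  intro V hV T R A hA hA1 y hy hyR
  have hy0 : 0 ≤ y := by linarith
  have h1 : μ * R.card ≤ y := (mul_le_mul_of_nonneg_right hle (by positivity)).trans hyR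
  refine (h V hV T R A hA hA1 y (hle.trans hy) h1).trans (Real.exp_le_exp.2 ?_)
  rw [neg_div, neg_div]
  apply neg_le_neg
  gcongr

theorem eventually_poly_log (C β : ℝ) (hβ : 0 < β) (p : ℕ) :
    ∀ᶠ Q : ℝ in atTop, C * (4 * Real.log Q + 1) ^ p ≤ Q ^ β := by
  set γ : ℝ := β / (p + 1) with hγ
  have hγ0 : 0 < γ := by positivity
  have h1 : ∀ᶠ Q : ℝ in atTop, 4 * Real.log Q + 1 ≤ Q ^ γ := by
    have h2 := (isLittleO_log_rpow_atTop hγ0).bound (show (0 : ℝ) < 1 / 8 by norm_num)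
    have h3 : ∀ᶠ Q : ℝ in atTop, (2 : ℝ) ≤ Q ^ γ :=
      (tendsto_rpow_atTop hγ0).eventually_ge_atTop 2
    filter_upwards [h2, h3, eventually_ge_atTop 1] with Q h4 h5 h6
    rw [Real.norm_of_nonneg (Real.log_nonneg h6), Real.norm_of_nonneg (by positivity)] at h4
    linarith
  have h2 : ∀ᶠ Q : ℝ in atTop, C ≤ Q ^ γ := (tendsto_rpow_atTop hγ0).eventually_ge_atTop C
  filter_upwards [h1, h2, eventually_ge_atTop 1] with Q h3 h4 h5
  have hL : 0 ≤ Real.log Q := Real.log_nonneg h5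
  have hQ0 : 0 ≤ Q := by linarith
  calc C * (4 * Real.log Q + 1) ^ p ≤ Q ^ γ * (Q ^ γ) ^ p := by gcongr
    _ = (Q ^ γ) ^ (p + 1) := by ring
    _ = Q ^ (γ * ((p + 1 : ℕ) : ℝ)) := by rw [Real.rpow_mul hQ0, Real.rpow_natCast]
    _ = Q ^ β := by
        congr 1
        rw [hγ]
        push_cast
        field_simp

/-- the parameters of one step -/
theorem param_step (κ : ℝ) (hκ : 0 < κ) : ∃ (a : ℕ) (κ' : ℝ), 0 < κ' ∧ ∃ Q₀ : ℝ, 2 ≤ Q₀ ∧
    ∀ Q : ℝ, Q₀ ≤ Q → 24 * Q ^ κ' *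
      (2 * (2 * 2 ^ a + 1) *
        (Dc (Q ^ κ') Q ^ (2 ^ a * (2 * 2 ^ a + 3)) * Q) ^ ((1 : ℝ) / (2 * 2 ^ a))) ^ 2 *
      (1 + Real.log Q) ^ 2 ≤ Q ^ κ := by
  obtain ⟨a, ha⟩ : ∃ a : ℕ, 1 / κ * 4 ≤ (2 : ℝ) ^ a := by
    obtain ⟨a, ha⟩ := pow_unbounded_of_one_lt (1 / κ * 4) (show (1 : ℝ) < 2 by norm_num)
    exact ⟨a, ha.le⟩
  set i : ℕ := 2 ^ a with hi
  have hi' : ((2 : ℝ) ^ a) = (i : ℝ) := by rw [hi]; push_cast; rfl
  rw [hi'] at ha
  have hi0 : (0 : ℝ) < i := by rw [← hi']; positivity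
  set c : ℕ := 2 * i + 3 with hc
  set κ' : ℝ := κ / (4 * (1 + c)) with hκ'
  have hκ'0 : 0 < κ' := by positivity
  set C : ℝ := 24 * (4 * (2 * i + 1) ^ 2) * 64 ^ c with hC
  obtain ⟨Q₁, hQ₁⟩ := eventually_atTop.1 (eventually_poly_log C (κ / 2) (by positivity) (4 * c + 2))
  refine ⟨a, κ', hκ'0, max Q₁ 2, le_max_right _ _, fun Q hQ => ?_⟩
  have hQ2 : 2 ≤ Q := (le_max_right _ _).trans hQ
  have hQC := hQ₁ Q ((le_max_left _ _).trans hQ)
  have hQ0 : 0 < Q := by linarith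
  have hL : 0 ≤ Real.log Q := Real.log_nonneg (by linarith)
  rw [hi']
  set D := Dc (Q ^ κ') Q with hD
  have hD0 : 0 ≤ D := by rw [hD]; unfold Dc; positivity
  -- the square of the root
  have hroot : ((D ^ (i * c) * Q) ^ ((1 : ℝ) / (2 * i))) ^ 2 = D ^ c * Q ^ (1 / (i : ℝ)) := by
    have h1 : ((D ^ (i * c) * Q) ^ ((1 : ℝ) / (2 * i))) ^ 2 = (D ^ (i * c) * Q) ^ (1 / (i : ℝ)) := by
      rw [← Real.rpow_natCast, ← Real.rpow_mul (by positivity)]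
      congr 1
      push_cast
      field_simp
    rw [h1, Real.mul_rpow (by positivity) hQ0.le]
    congr 1
    rw [mul_comm i c, pow_mul, ← Real.rpow_natCast (D ^ c) i, ← Real.rpow_mul (by positivity)]
    rw [mul_one_div_cancel hi0.ne', Real.rpow_one]
  rw [mul_pow, hroot]
  have hDc : D ^ c ≤ 64 ^ c * (4 * Real.log Q + 1) ^ (4 * c) * Q ^ (κ' * c) := by
    have h1 : D ≤ 64 * (4 * Real.log Q + 1) ^ 4 * Q ^ κ' := by
      rw [hD]
      unfold Dc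
      calc 64 * (Real.log Q + 1) ^ 2 * (4 * Real.log Q + 1) ^ 2 * Q ^ κ'
          ≤ 64 * (4 * Real.log Q + 1) ^ 2 * (4 * Real.log Q + 1) ^ 2 * Q ^ κ' := by
            gcongr
            linarith
        _ = 64 * (4 * Real.log Q + 1) ^ 4 * Q ^ κ' := by ring
    calc D ^ c ≤ (64 * (4 * Real.log Q + 1) ^ 4 * Q ^ κ') ^ c := by gcongr
      _ = 64 ^ c * (4 * Real.log Q + 1) ^ (4 * c) * (Q ^ κ') ^ c := by
          rw [mul_pow, mul_pow, ← pow_mul]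
      _ = _ := by rw [Real.rpow_mul hQ0.le, Real.rpow_natCast]
  calc 24 * Q ^ κ' * ((2 * (2 * (i : ℝ) + 1)) ^ 2 * (D ^ c * Q ^ (1 / (i : ℝ)))) *
        (1 + Real.log Q) ^ 2
      ≤ 24 * Q ^ κ' * ((2 * (2 * (i : ℝ) + 1)) ^ 2 *
          ((64 ^ c * (4 * Real.log Q + 1) ^ (4 * c) * Q ^ (κ' * c)) * Q ^ (1 / (i : ℝ)))) *
        (4 * Real.log Q + 1) ^ 2 := by
        rw [add_comm 1 (Real.log Q)]
        gcongr
        linarith
    _ = (C * (4 * Real.log Q + 1) ^ (4 * c + 2)) * (Q ^ κ' * Q ^ (κ' * c) * Q ^ (1 / (i : ℝ))) := by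
        rw [hC]
        ring
    _ ≤ Q ^ (κ / 2) * (Q ^ κ' * Q ^ (κ' * c) * Q ^ (1 / (i : ℝ))) := by gcongr
    _ = Q ^ (κ / 2 + (κ' + κ' * c + 1 / (i : ℝ))) := by
        rw [← Real.rpow_add hQ0, ← Real.rpow_add hQ0, ← Real.rpow_add hQ0]
    _ ≤ Q ^ κ := by
        apply Real.rpow_le_rpow_of_exponent_le (by linarith)
        have h1 : κ' + κ' * c = κ / 4 := by
          rw [hκ']
          field_simp
        have h2 : 1 / (i : ℝ) ≤ κ / 4 := by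
          rw [div_le_div_iff₀ hi0 (by norm_num)]
          rw [div_mul_eq_mul_div, div_le_iff₀ hκ] at ha
          linarith
        linarith

theorem loc_asymp (k : ℕ) (κ : ℝ) (hκ : 0 < κ) : ∃ Q₀ : ℝ, 2 ≤ Q₀ ∧ ∀ Q : ℝ, Q₀ ≤ Q →
    ∀ (ι : Type) [Fintype ι] [DecidableEq ι], (Fintype.card ι : ℝ) + 1 ≤ Q →
      Loc ι k (Q ^ κ) := by
  induction k generalizing κ with
  | zero =>
    refine ⟨2, le_rfl, fun Q hQ ι _ _ _ => loc_zero _ ?_⟩
    exact Real.one_lt_rpow (by linarith) hκ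
  | succ k ih =>
    obtain ⟨a, κ', hκ', Q₁, hQ₁, hstep⟩ := param_step κ hκ
    obtain ⟨Q₂, hQ₂, hloc⟩ := ih κ' hκ'
    refine ⟨max Q₁ Q₂, hQ₁.trans (le_max_left _ _), fun Q hQ ι _ _ hι => ?_⟩
    have hQ2 : 2 ≤ Q := hQ₁.trans ((le_max_left _ _).trans hQ)
    have hL : 0 ≤ Real.log Q := Real.log_nonneg (by linarith)
    have hμ1 : 1 ≤ Q ^ κ' := Real.one_le_rpow (by linarith) hκ'.le
    have h1 := hloc Q ((le_max_right _ _).trans hQ) ι hι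
    have h2 := hstep Q ((le_max_left _ _).trans hQ)
    set l := 2 * (2 * 2 ^ a + 1) *
        (Dc (Q ^ κ') Q ^ (2 ^ a * (2 * 2 ^ a + 3)) * Q) ^ ((1 : ℝ) / (2 * 2 ^ a)) with hl
    have hbig : Big ι k l := big_of_loc k (Q ^ κ') Q hι hQ2 hμ1 h1 a l le_rfl
    have hl1 : 1 ≤ l := by
      have h3 : 1 ≤ Dc (Q ^ κ') Q := by
        unfold Dc
        have h4 : (1 : ℝ) ≤ (Real.log Q + 1) ^ 2 := by nlinarith
        have h5 : (1 : ℝ) ≤ (4 * Real.log Q + 1) ^ 2 := by nlinarith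
        have h6 : (1 : ℝ) ≤ (Real.log Q + 1) ^ 2 * (4 * Real.log Q + 1) ^ 2 :=
          one_le_mul_of_one_le_of_one_le h4 h5
        nlinarith
      have h4 : (1 : ℝ) ≤ (Dc (Q ^ κ') Q ^ (2 ^ a * (2 * 2 ^ a + 3)) * Q) ^
          ((1 : ℝ) / (2 * 2 ^ a)) := by
        apply Real.one_le_rpow
        · have := one_le_pow₀ h3 (n := 2 ^ a * (2 * 2 ^ a + 3))
          nlinarith
        · positivity
      have h5 : (1 : ℝ) ≤ 2 * (2 * 2 ^ a + 1) := by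
        have : (0 : ℝ) < 2 ^ a := by positivity
        linarith
      rw [hl]
      exact one_le_mul_of_one_le_of_one_le h5 h4
    have h3 := loc_succ k (Q ^ κ') l Q hι hμ1 hl1 h1 hbig
    exact h3.mono (by positivity) h2

end Vale.Agent.P368

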