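import Mathlib

/-!
P368 (parity in QAC0): basic definitions used by all the internal files.

Qubits are indexed by a finite type `ι`; operators are matrices indexed by `ι → Bool` with the
`L²` operator norm (scope `Matrix.Norms.L2Operator`).
-/

open Matrix
open scoped Matrix.Norms.L2Operator

namespace Vale.Agent.P368

variable {ι : Type*} [Fintype ι] [DecidableEq ι]

/-- operators on the qubits `ι` -/
abbrev Op (ι : Type*) := Matrix (ι → Bool) (ι → Bool) ℂ

/-- tensor product of one-qubit operators -/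
def tens (u : ι → Matrix Bool Bool ℂ) : Op ι :=
  Matrix.of fun x y => ∏ i, u i (x i) (y i)

/-- Hamming weight of `x` on the set `T` -/
def wt (T : Finset ι) (x : ι → Bool) : ℕ := (T.filter fun i => x i = true).card

/-- spectral projector `[N_T ≥ y]` of the number operator `N_T` -/
noncomputable def Pge (T : Finset ι) (y : ℝ) : Op ι :=
  Matrix.diagonal fun x => if y ≤ (wt T x : ℝ) then 1 else 0

/-- `E_T = [N_T = 0]`: all qubits of `T` are in state `0` -/
noncomputable def Ez (T : Finset ι) : Op ι :=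
  Matrix.diagonal fun x => if wt T x = 0 then 1 else 0

/-- `n_S`: all qubits of `S` are in state `1` -/
noncomputable def nAll (S : Finset ι) : Op ι :=
  Matrix.diagonal fun x => if ∀ i ∈ S, x i = true then 1 else 0

/-- the operator `A` acts trivially outside `R` -/
def SuppOn (R : Finset ι) (A : Op ι) : Prop :=
  ∀ u : ι → Matrix Bool Bool ℂ, (∀ i ∈ R, u i = 1) → Commute A (tens u)

/-- a layer of generalized controlled-Z gates on a family of sets -/
noncomputable def layerCZ (F : Finset (Finset ι)) : Op ι :=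
  Matrix.diagonal fun x => ∏ S ∈ F, (if ∀ i ∈ S, x i = true then (-1 : ℂ) else 1)

/-- a tensor product of one-qubit unitaries -/
def IsTU (w : ι → Matrix Bool Bool ℂ) : Prop := ∀ i, w i ∈ Matrix.unitaryGroup Bool ℂ

/-- circuits of entangling depth `k` in normal form -/
inductive Circ : ℕ → Op ι → Prop
  | base (w : ι → Matrix Bool Bool ℂ) (hw : IsTU w) : Circ 0 (tens w)
  | step (k : ℕ) (V : Op ι) (hV : Circ k V) (F : Finset (Finset ι))
      (hF : (F : Set (Finset ι)).PairwiseDisjoint id)
      (w : ι → Matrix Bool Bool ℂ) (hw : IsTU w) :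
      Circ (k + 1) (V * layerCZ F * tens w)

/-- locality of few-site operators evolved by depth-`k` circuits -/
def Loc (ι : Type*) [Fintype ι] [DecidableEq ι] (k : ℕ) (μ : ℝ) : Prop :=
  ∀ V : Op ι, Circ k V → ∀ T R : Finset ι, ∀ A : Op ι, SuppOn R A → ‖A‖ ≤ 1 →
    ∀ y : ℝ, μ ≤ y → μ * R.card ≤ y →
      ‖Pge T y * (V * A * Vᴴ) * Ez T‖ ≤ Real.exp (-y / μ)

/-- locality of (large) product projectors evolved by depth-`k` circuits -/
def Big (ι : Type*) [Fintype ι] [DecidableEq ι] (k : ℕ) (l : ℝ) : Prop :=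
  ∀ V : Op ι, Circ k V → ∀ T T' : Finset ι, ∀ y : ℝ, l ≤ y →
      ‖Pge T y * (V * Ez T' * Vᴴ) * Ez T‖ ≤ Real.exp (-y / l)

end Vale.Agent.P368
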