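import Vale.Agent.P368.Base

/-!
P368: the power trick.  For projections `J`, `P`, `E` the norm of `J P E` is controlled by the norm
of `J (P E)^(i+1)`, `i = 2^a`.
-/

open Matrix
open scoped Matrix.Norms.L2Operator

namespace Vale.Agent.P368

section

variable {n : Type*} [Fintype n] [DecidableEq n]

/-- `(P E)^(i+1) (P E)^(i+1)ᴴ = (P E)^(2 i + 1) (E P)` -/
theorem pe_pow_mul_star (P E : Matrix n n ℂ) (hP : Pᴴ = P) (hE : Eᴴ = E) (hE2 : E * E = E)
    (i : ℕ) : (P * E) ^ (i + 1) * ((P * E) ^ (i + 1))ᴴ = (P * E) ^ (i + 1 + i) * (E * P) := by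
  have h1 : (P * E)ᴴ = E * P := by rw [conjTranspose_mul, hP, hE]
  rw [conjTranspose_pow, h1]
  have h2 : ∀ j : ℕ, (P * E) * (E * P) ^ (j + 1) = (P * E) ^ (j + 1) * (E * P) := by
    intro j
    induction j with
    | zero => simp
    | succ j ih =>
      have h3 : (P * E) ^ (j + 1) * E = (P * E) ^ (j + 1) := by
        rw [pow_succ, Matrix.mul_assoc, Matrix.mul_assoc, hE2]
      have h4 : (P * E) * (E * P) = P * (E * P) := by
        rw [Matrix.mul_assoc, ← Matrix.mul_assoc E E P, hE2]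
      calc (P * E) * (E * P) ^ (j + 1 + 1) = ((P * E) * (E * P) ^ (j + 1)) * (E * P) := by
            rw [pow_succ (E * P) (j + 1), ← Matrix.mul_assoc (P * E)]
        _ = (P * E) ^ (j + 1) * (E * P) * (E * P) := by rw [ih]
        _ = (P * E) ^ (j + 1) * E * (P * (E * P)) := by simp only [Matrix.mul_assoc]
        _ = (P * E) ^ (j + 1) * ((P * E) * (E * P)) := by rw [h3, h4]
        _ = (P * E) ^ (j + 1 + 1) * (E * P) := by
            rw [← Matrix.mul_assoc ((P * E) ^ (j + 1)) (P * E) (E * P), ← pow_succ]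
  rw [pow_succ (P * E) i, mul_assoc, h2 i, ← mul_assoc, ← pow_add]
  congr 2
  omega

theorem power_step (J P E : Matrix n n ℂ) (hJ : Jᴴ = J) (hP : Pᴴ = P) (hE : Eᴴ = E)
    (hE2 : E * E = E) (i : ℕ) :
    ‖J * (P * E) ^ (i + 1)‖ ^ 2 ≤ ‖J * (P * E) ^ (i + 1 + i)‖ * ‖J * (P * E)‖ := by
  have h1 : ‖J * (P * E) ^ (i + 1)‖ ^ 2
      = ‖J * (P * E) ^ (i + 1) * (J * (P * E) ^ (i + 1))ᴴ‖ := by
    rw [sq]
    exact (CStarRing.norm_self_mul_star (x := J * (P * E) ^ (i + 1))).symm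
  have h2 : J * (P * E) ^ (i + 1) * (J * (P * E) ^ (i + 1))ᴴ
      = (J * (P * E) ^ (i + 1 + i)) * (J * (P * E))ᴴ := by
    rw [conjTranspose_mul, conjTranspose_mul J (P * E), conjTranspose_mul P E, hJ, hP, hE]
    calc J * (P * E) ^ (i + 1) * (((P * E) ^ (i + 1))ᴴ * J)
        = J * ((P * E) ^ (i + 1) * ((P * E) ^ (i + 1))ᴴ) * J := by simp only [mul_assoc]
      _ = J * ((P * E) ^ (i + 1 + i) * (E * P)) * J := by
          rw [pe_pow_mul_star P E hP hE hE2 i]
      _ = J * (P * E) ^ (i + 1 + i) * (E * P * J) := by simp only [mul_assoc]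
  rw [h1, h2]
  refine (norm_mul_le _ _).trans ?_
  have h3 : ‖(J * (P * E))ᴴ‖ = ‖J * (P * E)‖ := norm_star (J * (P * E))
  rw [h3]

/-- the power trick -/
theorem power_trick {n : Type*} [Fintype n] [DecidableEq n] (J P E : Matrix n n ℂ)
    (hJ : Jᴴ = J) (hJ2 : J * J = J) (hP : Pᴴ = P) (hP2 : P * P = P) (hE : Eᴴ = E) (hE2 : E * E = E)
    (a : ℕ) : ‖J * (P * E)‖ ^ (2 * 2 ^ a + 1) ≤ ‖J * (P * E) ^ (2 ^ a + 1)‖ := by
  set b := ‖J * (P * E)‖ with hb
  have hb0 : 0 ≤ b := norm_nonneg _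
  rcases hb0.eq_or_lt with h0 | hpos
  · rw [← h0, zero_pow (by positivity)]
    exact norm_nonneg _
  have hJn : ‖J‖ ≤ 1 := by
    have h := CStarRing.norm_self_mul_star (x := J)
    rw [show star J = J from hJ, hJ2] at h
    rcases (norm_nonneg J).eq_or_lt with h1 | h1
    · rw [← h1]; exact zero_le_one
    · nlinarith
  induction a with
  | zero =>
    -- `b^2 = ‖J P E P J‖ ≤ ‖J P E P‖`, `‖J P E P‖^2 = ‖J (P E)^2 (E P) J‖ ≤ ‖J (P E)^2‖ b`
    have h1 : b ^ 2 ≤ ‖J * (P * E * P)‖ := by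
      have h : b ^ 2 = ‖J * (P * E) * (J * (P * E))ᴴ‖ := by
        rw [hb, sq]
        exact (CStarRing.norm_self_mul_star (x := J * (P * E))).symm
      rw [h, conjTranspose_mul, conjTranspose_mul P E, hJ, hP, hE]
      have h' : J * (P * E) * (E * P * J) = J * (P * E * P) * J := by
        calc J * (P * E) * (E * P * J) = J * (P * (E * E) * P) * J := by simp only [mul_assoc]
          _ = J * (P * E * P) * J := by rw [hE2]
      rw [h']
      refine (norm_mul_le _ _).trans ?_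
      exact mul_le_of_le_one_right (norm_nonneg _) hJn
    have h2 : ‖J * (P * E * P)‖ ^ 2 ≤ ‖J * (P * E) ^ 2‖ * b := by
      have h : ‖J * (P * E * P)‖ ^ 2 = ‖J * (P * E * P) * (J * (P * E * P))ᴴ‖ := by
        rw [sq]
        exact (CStarRing.norm_self_mul_star (x := J * (P * E * P))).symm
      have h' : J * (P * E * P) * (J * (P * E * P))ᴴ = (J * (P * E) ^ 2) * (J * (P * E))ᴴ := by
        rw [conjTranspose_mul, conjTranspose_mul, conjTranspose_mul, conjTranspose_mul J,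
          conjTranspose_mul P E, hJ, hP, hE]
        calc J * (P * E * P) * (P * (E * P) * J)
            = J * (P * E * (P * P) * (E * P)) * J := by simp only [mul_assoc]
          _ = J * (P * E * P * (E * P)) * J := by rw [hP2]
          _ = J * (P * E * (P * (E * E) * P)) * J := by rw [hE2]; simp only [mul_assoc]
          _ = J * (P * E) ^ 2 * (E * P * J) := by rw [sq]; simp only [mul_assoc]
      rw [h, h']
      refine (norm_mul_le _ _).trans ?_
      have h3 : ‖(J * (P * E))ᴴ‖ = ‖J * (P * E)‖ := norm_star (J * (P * E))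
      rw [h3]
    have h3 : b ^ 4 ≤ ‖J * (P * E) ^ 2‖ * b := by
      calc b ^ 4 = (b ^ 2) ^ 2 := by ring
        _ ≤ ‖J * (P * E * P)‖ ^ 2 := pow_le_pow_left₀ (by positivity) h1 2
        _ ≤ _ := h2
    have h4 : b ^ 3 * b ≤ ‖J * (P * E) ^ 2‖ * b := by
      calc b ^ 3 * b = b ^ 4 := by ring
        _ ≤ _ := h3
    simpa using le_of_mul_le_mul_right h4 hpos
  | succ a ih =>
    have h1 := power_step J P E hJ hP hE hE2 (2 ^ a)
    rw [← hb] at h1
    have h2 : (b ^ (2 * 2 ^ a + 1)) ^ 2 ≤ ‖J * (P * E) ^ (2 ^ a + 1 + 2 ^ a)‖ * b :=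
      (pow_le_pow_left₀ (by positivity) ih 2).trans h1
    have h3 : b ^ (2 * 2 ^ (a + 1) + 1) * b = (b ^ (2 * 2 ^ a + 1)) ^ 2 := by
      rw [← pow_succ, ← pow_mul]
      congr 1
      rw [pow_succ]
      ring
    have h4 : 2 ^ a + 1 + 2 ^ a = 2 ^ (a + 1) + 1 := by rw [pow_succ]; ring
    rw [← h3, h4] at h2
    exact le_of_mul_le_mul_right h2 hpos

end

end Vale.Agent.P368

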