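import Vale.Agent.P368.Iter
import Vale.Agent.P368.Power

open Matrix
open scoped Matrix.Norms.L2Operator

namespace Vale.Agent.P368

variable {ι : Type*} [Fintype ι] [DecidableEq ι]

omit [DecidableEq ι] in
theorem Pge_conjTranspose' (T : Finset ι) (y : ℝ) : (Pge T y : Op ι)ᴴ = Pge T y := by
  unfold Pge
  rw [Matrix.diagonal_conjTranspose]
  congr 1
  funext x
  simp only [Pi.star_apply]
  split_ifs <;> simp

theorem Pge_mul_Pge' (T : Finset ι) (y : ℝ) : (Pge T y : Op ι) * Pge T y = Pge T y := by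
  unfold Pge
  rw [Matrix.diagonal_mul_diagonal]
  congr 1
  funext x
  split_ifs <;> simp

omit [DecidableEq ι] in
theorem Ez_conjTranspose' (T : Finset ι) : (Ez T : Op ι)ᴴ = Ez T := by
  unfold Ez
  rw [Matrix.diagonal_conjTranspose]
  congr 1
  funext x
  simp only [Pi.star_apply]
  split_ifs <;> simp

theorem one_le_Dc {μ Q : ℝ} (hQ2 : 2 ≤ Q) (hμ : 1 ≤ μ) : 1 ≤ Dc μ Q := by
  have hL : 0 ≤ Real.log Q := Real.log_nonneg (by linarith)
  unfold Dc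
  have h1 : (1 : ℝ) ≤ (Real.log Q + 1) ^ 2 := one_le_pow₀ (by linarith)
  have h2 : (1 : ℝ) ≤ (4 * Real.log Q + 1) ^ 2 := one_le_pow₀ (by linarith)
  have h3 : (1 : ℝ) ≤ (Real.log Q + 1) ^ 2 * (4 * Real.log Q + 1) ^ 2 := by nlinarith
  have h4 : (1 : ℝ) ≤ (Real.log Q + 1) ^ 2 * (4 * Real.log Q + 1) ^ 2 * μ := by nlinarith
  nlinarith

theorem big_of_loc (k : ℕ) (μ Q : ℝ) (hQ : (Fintype.card ι : ℝ) + 1 ≤ Q) (hQ2 : 2 ≤ Q)
    (hμ : 1 ≤ μ) (hloc : Loc ι k μ) (a : ℕ) (l : ℝ)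
    (hl : 2 * (2 * 2 ^ a + 1) * (Dc μ Q ^ (2 ^ a * (2 * 2 ^ a + 3)) * Q) ^ ((1 : ℝ) / (2 * 2 ^ a)) ≤ l) :
    Big ι k l := by
  intro V hV T T' y hy
  -- abbreviations
  obtain ⟨i, hi⟩ : ∃ i : ℕ, i = 2 ^ a := ⟨_, rfl⟩
  have hi1 : 1 ≤ i := by rw [hi]; exact Nat.one_le_two_pow
  have hiR : (1 : ℝ) ≤ (i : ℝ) := by exact_mod_cast hi1
  have hiR' : ((2 : ℝ) ^ a) = (i : ℝ) := by rw [hi]; push_cast; rfl
  have hD1 : 1 ≤ Dc μ Q := one_le_Dc hQ2 hμ
  set K : ℝ := Dc μ Q ^ (2 ^ a * (2 * 2 ^ a + 3)) * Q with hK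
  have hK1 : 1 ≤ K := by
    have : 1 ≤ Dc μ Q ^ (2 ^ a * (2 * 2 ^ a + 3)) := one_le_pow₀ hD1
    rw [hK]; nlinarith
  set c : ℝ := K ^ ((1 : ℝ) / (2 * 2 ^ a)) with hc
  have hc1 : 1 ≤ c := Real.one_le_rpow hK1 (by positivity)
  have hcpow : c ^ (2 * i) = K := by
    rw [hc, ← Real.rpow_natCast, ← Real.rpow_mul (by linarith), hiR']
    have : (1 : ℝ) / (2 * (i : ℝ)) * ((2 * i : ℕ) : ℝ) = 1 := by
      push_cast; field_simp
    rw [this, Real.rpow_one]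
  rw [hiR'] at hl
  have hl1 : 2 * (2 * (i : ℝ) + 1) * c ≤ y := hl.trans hy
  have hlpos : 0 < l := by
    have : 0 < 2 * (2 * (i : ℝ) + 1) * c := by positivity
    linarith
  have hy1 : 1 ≤ y := by nlinarith
  have hcpos : 0 < c := by linarith
  -- the parameter Λ
  set Λ : ℝ := y / c with hΛ
  have hΛc : Λ * c = y := by rw [hΛ]; field_simp
  have hΛbig : 2 * (2 * (i : ℝ) + 1) ≤ Λ := by
    rw [hΛ, le_div_iff₀ hcpos]; exact hl1
  have hΛ1 : 1 ≤ Λ := by linarith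
  have hcond : Λ ^ (2 * i) * (Dc μ Q ^ (i * (2 * i + 3)) * Q) ≤ y ^ (2 * i + 1) := by
    have e1 : Dc μ Q ^ (i * (2 * i + 3)) * Q = c ^ (2 * i) := by
      rw [hcpow, hK, hi]
    rw [e1, ← mul_pow, hΛc, pow_succ]
    have : 0 ≤ y ^ (2 * i) := by positivity
    nlinarith
  have hit := iterate k μ Q hQ hQ2 hμ hloc V hV T T' i Λ y hΛ1 hcond (by linarith)
  -- the projections
  obtain ⟨hU1, hU2⟩ := hV.unitary
  have hP : (V * Ez T' * Vᴴ)ᴴ = V * Ez T' * Vᴴ := by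
    rw [conjTranspose_mul, conjTranspose_mul, conjTranspose_conjTranspose, Ez_conjTranspose',
      Matrix.mul_assoc]
  have hP2 : (V * Ez T' * Vᴴ) * (V * Ez T' * Vᴴ) = V * Ez T' * Vᴴ := by
    calc (V * Ez T' * Vᴴ) * (V * Ez T' * Vᴴ) = V * Ez T' * (Vᴴ * V) * Ez T' * Vᴴ := by
          simp only [Matrix.mul_assoc]
      _ = V * (Ez T' * Ez T') * Vᴴ := by rw [hU1]; simp only [Matrix.mul_assoc, Matrix.one_mul]
      _ = V * Ez T' * Vᴴ := by rw [Ez_mul_Ez]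
  have hpt := power_trick (Pge T y : Op ι) (V * Ez T' * Vᴴ) (Ez T) (Pge_conjTranspose' T y)
    (Pge_mul_Pge' T y) hP hP2 (Ez_conjTranspose' T) (Ez_mul_Ez T) a
  rw [← hi] at hpt
  have hb : ‖Pge T y * (V * Ez T' * Vᴴ * Ez T)‖ ^ (2 * i + 1) ≤ Real.exp (-y / l) ^ (2 * i + 1) := by
    refine hpt.trans (hit.trans ?_)
    rw [← Real.exp_nat_mul]
    have h4 : (4 * (i : ℝ)) ≤ Real.exp (2 * i) := by
      have e1 := Real.add_one_le_exp (1 : ℝ)
      have e2 := Real.add_one_le_exp (2 * (i : ℝ) - 1)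
      have e3 : Real.exp (2 * (i : ℝ)) = Real.exp 1 * Real.exp (2 * i - 1) := by
        rw [← Real.exp_add]; ring_nf
      rw [e3]
      nlinarith [Real.exp_pos 1, Real.exp_pos (2 * (i : ℝ) - 1)]
    calc 4 * (i : ℝ) * Real.exp (-Λ) ≤ Real.exp (2 * i) * Real.exp (-Λ) := by
          gcongr
      _ = Real.exp (2 * i - Λ) := by rw [← Real.exp_add]; ring_nf
      _ ≤ Real.exp (((2 * i + 1 : ℕ) : ℝ) * (-y / l)) := by
          apply Real.exp_le_exp.mpr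
          push_cast
          have h5 : (2 * (i : ℝ) + 1) * (y / l) ≤ Λ / 2 := by
            rw [← hΛc]
            have : (2 * (i : ℝ) + 1) * (Λ * c / l) = Λ * (((2 * (i : ℝ) + 1) * c) / l) := by ring
            rw [this]
            have h6 : ((2 * (i : ℝ) + 1) * c) / l ≤ 1 / 2 := by
              rw [div_le_div_iff₀ hlpos (by norm_num)]
              linarith
            nlinarith
          have h7 : (2 * (i : ℝ) + 1) * (-y / l) = -((2 * (i : ℝ) + 1) * (y / l)) := by ring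
          rw [h7]
          linarith
  rw [Matrix.mul_assoc (Pge T y : Op ι)]
  exact le_of_pow_le_pow_left₀ (by omega) (Real.exp_pos _).le hb

end Vale.Agent.P368

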