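import Mathlib

/-!
# QAC circuits (definitions used in the statement of the hand-in)

The definitions follow the problem text word by word.
-/

open Matrix

namespace Vale.Agent.P368

/-- Computational basis states of `N` qubits (`true` is the bit `1`). -/
abbrev Bits (N : ℕ) := Fin N → Bool

/-- The gates: an arbitrary unitary `u` on one qubit `q`, and the generalized Toffoli gate
`|z₁,…,z_t,b⟩ ↦ |z₁,…,z_t,b ⊕ z₁⋯z_t⟩` with a nonempty set `c` of control qubits and a target
qubit `t ∉ c` (any number of controls). -/
inductive Gate (N : ℕ) : Type
  | one (q : Fin N) (u : Matrix Bool Bool ℂ) (hu : u ∈ Matrix.unitaryGroup Bool ℂ) : Gate N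
  | toffoli (c : Finset (Fin N)) (t : Fin N) (hc : c.Nonempty) (ht : t ∉ c) : Gate N

/-- The set of qubits a gate acts on. -/
def Gate.support {N : ℕ} : Gate N → Finset (Fin N)
  | .one q _ _ => {q}
  | .toffoli c t _ _ => insert t c

/-- Is the gate a multiqubit gate? -/
def Gate.isMulti {N : ℕ} : Gate N → Bool
  | .one _ _ _ => false
  | .toffoli _ _ _ _ => true

/-- The unitary matrix of a gate in the computational basis; the entry at `(x, y)` is the
amplitude of `|y⟩ ↦ |x⟩`. -/
noncomputable def Gate.matrix {N : ℕ} : Gate N → Matrix (Bits N) (Bits N) ℂ
  | .one q u _ => Matrix.of fun x y => if ∀ j, j ≠ q → x j = y j then u (x q) (y q) else 0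
  | .toffoli c t _ _ => Matrix.of fun x y =>
      if x = Function.update y t (xor (y t) (decide (∀ i ∈ c, y i = true))) then 1 else 0

/-- A layer: gates with pairwise disjoint supports. -/
structure Layer (N : ℕ) where
  /-- the gates of the layer -/
  gates : List (Gate N)
  /-- their supports are pairwise disjoint -/
  disjoint : gates.Pairwise fun g h => Disjoint g.support h.support

/-- The unitary of a layer: the product of its (commuting) gates. -/
noncomputable def Layer.matrix {N : ℕ} (L : Layer N) : Matrix (Bits N) (Bits N) ℂ :=
  (L.gates.map Gate.matrix).prod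

/-- Does the layer contain a multiqubit gate? -/
def Layer.isEntangling {N : ℕ} (L : Layer N) : Bool := L.gates.any Gate.isMulti

/-- A circuit on `N` qubits: a list of layers (the head of the list is applied first) and the
designated output qubit. -/
structure Circuit (N : ℕ) where
  /-- the layers, in the order in which they are applied -/
  layers : List (Layer N)
  /-- the qubit that is measured at the end -/
  out : Fin N

/-- The unitary of a list of layers, head applied first. -/
noncomputable def layersMatrix {N : ℕ} : List (Layer N) → Matrix (Bits N) (Bits N) ℂ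
  | [] => 1
  | L :: Ls => layersMatrix Ls * L.matrix

namespace Circuit

variable {N n : ℕ}

/-- The unitary of a circuit. -/
noncomputable def unitary (C : Circuit N) : Matrix (Bits N) (Bits N) ℂ := layersMatrix C.layers

/-- Depth: number of layers. -/
def depth (C : Circuit N) : ℕ := C.layers.length

/-- Entangling depth: number of layers that contain a multiqubit gate. -/
def entanglingDepth (C : Circuit N) : ℕ := C.layers.countP Layer.isEntangling

end Circuit

/-- The initial basis state `|x⟩ ⊗ |0⟩^{N-n}`: the first `n` qubits carry the input `x`. -/
def initial {N n : ℕ} (x : Fin n → Bool) : Bits N :=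
  fun j => if h : (j : ℕ) < n then x ⟨j, h⟩ else false

/-- The parity `x₁ ⊕ ⋯ ⊕ x_n`. -/
def parity {n : ℕ} (x : Fin n → Bool) : Bool :=
  decide (Odd (Finset.univ.filter fun i => x i = true).card)

namespace Circuit

variable {N n : ℕ}

/-- Probability that the measurement of the output qubit gives `b` on input `x`. -/
noncomputable def outProb (C : Circuit N) (x : Fin n → Bool) (b : Bool) : ℝ :=
  ∑ y : Bits N with y C.out = b, ‖C.unitary y (initial x)‖ ^ 2

/-- Probability that the answer of the circuit on input `x` is the parity of `x`. -/
noncomputable def successProb (C : Circuit N) (x : Fin n → Bool) : ℝ := C.outProb x (parity x)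

/-- Parity correlation: average over uniform `x ∈ {0,1}^n` of `Pr[correct] - Pr[wrong]`. -/
noncomputable def parityCorrelation (n : ℕ) (C : Circuit N) : ℝ :=
  (∑ x : Fin n → Bool, (C.outProb x (parity x) - C.outProb x (!parity x))) / 2 ^ n

/-- The circuit computes `PAR_n` with worst-case advantage `ε`. -/
def ComputesParity (n : ℕ) (ε : ℝ) (C : Circuit N) : Prop :=
  ∀ x : Fin n → Bool, 1 / 2 + ε ≤ C.successProb x

end Circuit

/-- A family of circuits, one for each input length `n`; the `n`-th circuit acts on
`numQubits n ≥ n` qubits. -/
structure CircuitFamily where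
  /-- number of qubits -/
  numQubits : ℕ → ℕ
  /-- there is room for the input -/
  le_numQubits : ∀ n, n ≤ numQubits n
  /-- the circuits -/
  circuit : ∀ n, Circuit (numQubits n)

/-- `QAC⁰`: constant depth and polynomially many qubits. -/
def CircuitFamily.IsQAC0 (F : CircuitFamily) : Prop :=
  (∃ d : ℕ, ∀ n, (F.circuit n).depth ≤ d) ∧ (∃ c : ℕ, ∀ n, F.numQubits n ≤ n ^ c + c)

end Vale.Agent.P368

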