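import Vale.Agent.P368.Parity

/-! Final theorems, assuming the asymptotic locality theorem `loc_asymp`. -/

open Matrix Filter
open scoped Matrix.Norms.L2Operator

namespace Vale.Agent.P368

/-- total probability is one -/
theorem outProb_add {N n : ℕ} (C : Circuit N) (x : Fin n → Bool) (b : Bool) :
    C.outProb x b + C.outProb x (!b) = 1 := by
  have hU : C.unitaryᴴ * C.unitary = 1 := (layersMatrix_circ C.layers).unitary.1
  have h1 : ((C.unitaryᴴ * C.unitary) (initial x) (initial x)) = 1 := by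
    rw [hU, Matrix.one_apply_eq]
  rw [Matrix.mul_apply] at h1
  have h2 : ∀ y : Bits N, C.unitaryᴴ (initial x) y * C.unitary y (initial x)
      = ((‖C.unitary y (initial x)‖ ^ 2 : ℝ) : ℂ) := by
    intro y
    rw [Matrix.conjTranspose_apply, Complex.ofReal_pow, ← Complex.conj_mul']
    rfl
  rw [Finset.sum_congr rfl fun y _ => h2 y, ← Complex.ofReal_sum] at h1
  have h3 : ∑ y : Bits N, ‖C.unitary y (initial x)‖ ^ 2 = 1 := by exact_mod_cast h1
  rw [← h3]
  unfold Circuit.outProb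
  rw [Finset.sum_filter, Finset.sum_filter, ← Finset.sum_add_distrib]
  apply Finset.sum_congr rfl
  intro y _
  cases y C.out <;> cases b <;> simp

/-- worst-case advantage gives correlation -/
theorem correlation_ge {N n : ℕ} (C : Circuit N) (ε : ℝ) (h : C.ComputesParity n ε) :
    2 * ε ≤ C.parityCorrelation n := by
  unfold Circuit.parityCorrelation
  rw [le_div_iff₀ (by positivity)]
  have h1 : ∀ x : Fin n → Bool, 2 * ε ≤ C.outProb x (parity x) - C.outProb x (!parity x) := by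
    intro x
    have h2 := h x
    have h3 := outProb_add C x (parity x)
    unfold Circuit.successProb at h2
    linarith
  calc 2 * ε * 2 ^ n = ∑ _x : Fin n → Bool, 2 * ε := by
        rw [Finset.sum_const, Finset.card_univ, Fintype.card_fun, Fintype.card_bool,
          Fintype.card_fin, nsmul_eq_mul]
        push_cast
        ring
    _ ≤ _ := Finset.sum_le_sum fun x _ => h1 x

theorem correlation_bound_aux (d c : ℕ) (κ : ℝ) (hκ : 0 < κ) (hκ1 : κ ≤ 1) :
    ∀ᶠ n : ℕ in atTop, ∀ N : ℕ, n ≤ N → N ≤ n ^ c → ∀ C : Circuit N, C.entanglingDepth ≤ d →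
      |C.parityCorrelation n| ≤ Real.exp (-(n : ℝ) ^ (1 - κ)) := by
  have hc : (0 : ℝ) < (c : ℝ) + 1 := by positivity
  obtain ⟨Q₀, hQ₀, hloc⟩ := loc_asymp d (κ / (c + 1)) (div_pos hκ hc)
  have hev : ∀ᶠ n : ℕ in atTop, Q₀ ≤ (n : ℝ) :=
    tendsto_natCast_atTop_atTop.eventually_ge_atTop Q₀
  filter_upwards [hev, eventually_ge_atTop 2] with n hn hn2 N hnN hN C hC
  obtain ⟨m, rfl⟩ := Nat.exists_eq_add_of_le hnN
  have hn2' : (2 : ℝ) ≤ n := by exact_mod_cast hn2
  have hn1' : (1 : ℝ) ≤ n := by linarith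
  have hn0 : (0 : ℝ) < n := by linarith
  have hQ : Q₀ ≤ (n : ℝ) ^ (c + 1) := by
    refine hn.trans ?_
    calc (n : ℝ) = (n : ℝ) ^ 1 := (pow_one _).symm
      _ ≤ (n : ℝ) ^ (c + 1) := pow_le_pow_right₀ hn1' (by omega)
  have hcard : ((Fintype.card (Fin (n + m)) : ℕ) : ℝ) + 1 ≤ (n : ℝ) ^ (c + 1) := by
    rw [Fintype.card_fin]
    have h1 : ((n + m : ℕ) : ℝ) ≤ (n : ℝ) ^ c := by exact_mod_cast hN
    have h2 : (1 : ℝ) ≤ (n : ℝ) ^ c := one_le_pow₀ hn1'
    calc ((n + m : ℕ) : ℝ) + 1 ≤ (n : ℝ) ^ c + (n : ℝ) ^ c := by linarith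
      _ = 2 * (n : ℝ) ^ c := by ring
      _ ≤ n * (n : ℝ) ^ c := by gcongr
      _ = (n : ℝ) ^ (c + 1) := by ring
  have h := hloc _ hQ (Fin (n + m)) hcard
  have hμ : ((n : ℝ) ^ (c + 1)) ^ (κ / (c + 1)) = (n : ℝ) ^ κ := by
    rw [← Real.rpow_natCast, ← Real.rpow_mul hn0.le]
    congr 1
    push_cast
    field_simp
  rw [hμ] at h
  have hle : (n : ℝ) ^ κ ≤ n := by
    calc (n : ℝ) ^ κ ≤ (n : ℝ) ^ (1 : ℝ) := Real.rpow_le_rpow_of_exponent_le hn1' hκ1
      _ = n := Real.rpow_one _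
  have hCirc : Circ d C.unitary := (layersMatrix_circ C.layers).mono hC
  have h5 := correlation_le n m d ((n : ℝ) ^ κ) h hle C hCirc
  refine h5.trans (le_of_eq ?_)
  congr 1
  rw [Real.rpow_sub hn0, Real.rpow_one, neg_div]

theorem correlation_bound (d c : ℕ) (κ : ℝ) (hκ : 0 < κ) :
    ∀ᶠ n : ℕ in atTop, ∀ N : ℕ, n ≤ N → N ≤ n ^ c → ∀ C : Circuit N, C.entanglingDepth ≤ d →
      |C.parityCorrelation n| ≤ Real.exp (-(n : ℝ) ^ (1 - κ)) := by
  by_cases hκ1 : κ ≤ 1
  · exact correlation_bound_aux d c κ hκ hκ1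
  · push Not at hκ1
    filter_upwards [correlation_bound_aux d c 1 one_pos le_rfl, eventually_ge_atTop 1]
      with n hn hn1 N hnN hN C hC
    refine (hn N hnN hN C hC).trans ?_
    rw [Real.exp_le_exp, neg_le_neg_iff, sub_self, Real.rpow_zero]
    apply Real.rpow_le_one_of_one_le_of_nonpos
    · exact_mod_cast hn1
    · linarith

theorem no_qac0_parity (F : CircuitFamily) (hF : F.IsQAC0) (ε : ℝ) (hε : 0 < ε) :
    ∀ᶠ n in atTop, ¬ (F.circuit n).ComputesParity n ε := by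
  obtain ⟨⟨d, hd⟩, c, hc⟩ := hF
  have hlim : Tendsto (fun n : ℕ => Real.exp (-(n : ℝ) ^ (1 - (1 / 2 : ℝ)))) atTop (nhds 0) := by
    apply Real.tendsto_exp_neg_atTop_nhds_zero.comp
    exact (tendsto_rpow_atTop (by norm_num)).comp tendsto_natCast_atTop_atTop
  have hev : ∀ᶠ n : ℕ in atTop, Real.exp (-(n : ℝ) ^ (1 - (1 / 2 : ℝ))) < 2 * ε :=
    hlim.eventually_lt_const (by linarith)
  filter_upwards [correlation_bound d (c + 1) (1 / 2) (by norm_num), hev, eventually_ge_atTop 2]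
    with n hn hlt hn2 hcomp
  have hN : F.numQubits n ≤ n ^ (c + 1) := by
    calc F.numQubits n ≤ n ^ c + c := hc n
      _ ≤ n ^ c + 2 ^ c := by gcongr; exact (Nat.lt_two_pow_self).le
      _ ≤ n ^ c + n ^ c := by gcongr
      _ = 2 * n ^ c := by ring
      _ ≤ n * n ^ c := by gcongr
      _ = n ^ (c + 1) := by ring
  have hdep : (F.circuit n).entanglingDepth ≤ d := List.countP_le_length.trans (hd n)
  have h1 := hn _ (F.le_numQubits n) hN (F.circuit n) hdep
  have h2 := correlation_ge (F.circuit n) ε hcomp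
  have h3 := le_abs_self ((F.circuit n).parityCorrelation n)
  linarith

end Vale.Agent.P368

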