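import Mathlib

/-!
P368: the polynomial lemma.  A polynomial `p` with `p 0 = 1` which is at most `e^{-Λ}` at the
integers in `[1, S)`, of degree `O(log Q √(S Λ))`, with controlled coefficients.
-/

open Polynomial

namespace Vale.Agent.P368

/-- `M` bounds the weighted coefficient norm `∑ |p_m| q^m` -/
def Dom (q : ℝ) (p : ℝ[X]) (M : ℝ) : Prop :=
  ∃ r : ℝ[X], (∀ m, |p.coeff m| ≤ r.coeff m) ∧ r.eval q ≤ M

theorem Dom.nonneg_coeff {p r : ℝ[X]} (h : ∀ m, |p.coeff m| ≤ r.coeff m) (m : ℕ) :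
    0 ≤ r.coeff m := (abs_nonneg _).trans (h m)

theorem eval_nonneg_of_coeff {q : ℝ} (hq : 0 ≤ q) {r : ℝ[X]} (h : ∀ m, 0 ≤ r.coeff m) :
    0 ≤ r.eval q := by
  rw [eval_eq_sum_range]
  exact Finset.sum_nonneg fun m _ => mul_nonneg (h m) (pow_nonneg hq m)

theorem Dom.nonneg {q : ℝ} (hq : 0 ≤ q) {p : ℝ[X]} {M : ℝ} (h : Dom q p M) : 0 ≤ M := by
  obtain ⟨r, h1, h2⟩ := h
  exact (eval_nonneg_of_coeff hq (Dom.nonneg_coeff h1)).trans h2

theorem Dom.mono {q : ℝ} {p : ℝ[X]} {M M' : ℝ} (h : Dom q p M) (hM : M ≤ M') : Dom q p M' := by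
  obtain ⟨r, h1, h2⟩ := h
  exact ⟨r, h1, h2.trans hM⟩

theorem Dom.mul {q : ℝ} (hq : 0 ≤ q) {p p' : ℝ[X]} {M M' : ℝ} (h : Dom q p M) (h' : Dom q p' M') :
    Dom q (p * p') (M * M') := by
  have hM := h.nonneg hq
  obtain ⟨r, h1, h2⟩ := h
  obtain ⟨r', h1', h2'⟩ := h'
  refine ⟨r * r', fun m => ?_, ?_⟩
  · rw [coeff_mul, coeff_mul]
    refine (Finset.abs_sum_le_sum_abs _ _).trans (Finset.sum_le_sum fun x _ => ?_)
    rw [abs_mul]
    exact mul_le_mul (h1 _) (h1' _) (abs_nonneg _) (Dom.nonneg_coeff h1 _)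
  · rw [eval_mul]
    exact mul_le_mul h2 h2' (eval_nonneg_of_coeff hq (Dom.nonneg_coeff h1')) hM

theorem Dom.add {q : ℝ} {p p' : ℝ[X]} {M M' : ℝ} (h : Dom q p M) (h' : Dom q p' M') :
    Dom q (p + p') (M + M') := by
  obtain ⟨r, h1, h2⟩ := h
  obtain ⟨r', h1', h2'⟩ := h'
  refine ⟨r + r', fun m => ?_, ?_⟩
  · rw [coeff_add, coeff_add]
    exact (abs_add_le _ _).trans (add_le_add (h1 _) (h1' _))
  · rw [eval_add]
    exact add_le_add h2 h2'

theorem Dom.const (q a : ℝ) : Dom q (C a) |a| := by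
  refine ⟨C |a|, fun m => ?_, by simp⟩
  rw [coeff_C, coeff_C]
  split_ifs <;> simp

theorem Dom.X_mul (q a : ℝ) : Dom q (C a * X) (|a| * q) := by
  refine ⟨C |a| * X, fun m => ?_, by simp⟩
  rw [coeff_C_mul, coeff_C_mul, abs_mul]
  have : |(X : ℝ[X]).coeff m| = (X : ℝ[X]).coeff m := by
    rw [coeff_X]; split_ifs <;> simp
  rw [this]

theorem Dom.pow {q : ℝ} (hq : 0 ≤ q) {p : ℝ[X]} {M : ℝ} (h : Dom q p M) (n : ℕ) :
    Dom q (p ^ n) (M ^ n) := by
  induction n with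
  | zero =>
    have := Dom.const q 1
    simpa using this
  | succ n ih =>
    rw [pow_succ, pow_succ]
    exact ih.mul hq h

theorem Dom.prod {q : ℝ} (hq : 0 ≤ q) {f : ℕ → ℝ[X]} {M : ℝ} (h : ∀ i, Dom q (f i) M) (n : ℕ) :
    Dom q (∏ i ∈ Finset.range n, f i) (M ^ n) := by
  induction n with
  | zero =>
    have := Dom.const q 1
    simpa using this
  | succ n ih =>
    rw [Finset.prod_range_succ, pow_succ]
    exact ih.mul hq (h n)

theorem Dom.sum_le {q : ℝ} (hq : 0 ≤ q) {p : ℝ[X]} {M : ℝ} (h : Dom q p M) :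
    ∑ m ∈ Finset.range (p.natDegree + 1), |p.coeff m| * q ^ m ≤ M := by
  obtain ⟨r, h1, h2⟩ := h
  refine le_trans ?_ h2
  have hd : p.natDegree ≤ r.natDegree := by
    rcases eq_or_ne p 0 with rfl | hp
    · simp
    · apply le_natDegree_of_ne_zero
      have h3 := h1 p.natDegree
      have h4 : 0 < |p.coeff p.natDegree| := by
        rw [abs_pos, coeff_natDegree]
        exact leadingCoeff_ne_zero.2 hp
      exact (h4.trans_le h3).ne'
  rw [eval_eq_sum_range]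
  calc ∑ m ∈ Finset.range (p.natDegree + 1), |p.coeff m| * q ^ m
      ≤ ∑ m ∈ Finset.range (p.natDegree + 1), r.coeff m * q ^ m :=
        Finset.sum_le_sum fun m _ => mul_le_mul_of_nonneg_right (h1 m) (pow_nonneg hq m)
    _ ≤ ∑ m ∈ Finset.range (r.natDegree + 1), r.coeff m * q ^ m := by
        apply Finset.sum_le_sum_of_subset_of_nonneg
        · exact Finset.range_mono (by omega)
        · intro m _ _
          exact mul_nonneg (Dom.nonneg_coeff h1 m) (pow_nonneg hq m)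

/-- iterated `2 x^2 - 1` (the Chebyshev polynomial of degree `2^j`), composed with `g` -/
noncomputable def chb (g : ℝ[X]) : ℕ → ℝ[X]
  | 0 => g
  | j + 1 => C 2 * (chb g j) ^ 2 + C (-1)

theorem chb_eval_le (g : ℝ[X]) (x : ℝ) (h : |g.eval x| ≤ 1) (j : ℕ) : |(chb g j).eval x| ≤ 1 := by
  induction j with
  | zero => exact h
  | succ j ih =>
    simp only [chb, eval_add, eval_mul, eval_C, eval_pow]
    rw [abs_le] at ih ⊢
    constructor <;> nlinarith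

theorem chb_eval_ge (g : ℝ[X]) (x e : ℝ) (he : 0 ≤ e) (h : 1 + e ≤ g.eval x) (j : ℕ) :
    1 + 4 ^ j * e ≤ (chb g j).eval x := by
  induction j with
  | zero => simpa [chb] using h
  | succ j ih =>
    simp only [chb, eval_add, eval_mul, eval_C, eval_pow]
    have h0 : 0 ≤ 4 ^ j * e := by positivity
    have h1 : (1 + 4 ^ j * e) ^ 2 ≤ ((chb g j).eval x) ^ 2 :=
      pow_le_pow_left₀ (by linarith) ih 2
    rw [pow_succ]
    nlinarith [sq_nonneg (4 ^ j * e)]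

theorem chb_natDegree (g : ℝ[X]) (hg : g.natDegree ≤ 1) (j : ℕ) : (chb g j).natDegree ≤ 2 ^ j := by
  induction j with
  | zero => simpa [chb] using hg
  | succ j ih =>
    simp only [chb]
    refine (natDegree_add_C).le.trans ?_
    refine (natDegree_C_mul_le _ _).trans ?_
    refine natDegree_pow_le.trans ?_
    rw [pow_succ]
    omega

theorem chb_dom {q : ℝ} (hq : 0 ≤ q) (g : ℝ[X]) (w : ℝ) (hw : 1 ≤ w) (hg : Dom q g w) (j : ℕ) :
    Dom q (chb g j) ((3 * w) ^ (2 ^ j) / 3) := by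
  induction j with
  | zero => simpa [chb] using hg
  | succ j ih =>
    simp only [chb]
    have h1 := ((Dom.const q 2).mul hq (ih.pow hq 2)).add (Dom.const q (-1))
    refine h1.mono ?_
    have h2 : (3 * w) ^ (2 ^ (j + 1)) = ((3 * w) ^ (2 ^ j)) ^ 2 := by
      rw [← pow_mul, pow_succ]
    rw [h2]
    have h3 : (3 : ℝ) ≤ (3 * w) ^ (2 ^ j) := by
      have h4 : (3 : ℝ) ≤ 3 * w := by linarith
      calc (3 : ℝ) ≤ 3 * w := h4
        _ = (3 * w) ^ 1 := (pow_one _).symm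
        _ ≤ (3 * w) ^ (2 ^ j) := pow_le_pow_right₀ (by linarith) Nat.one_le_two_pow
    rw [abs_neg, abs_one, abs_two]
    nlinarith


/-- the linear factors -/
noncomputable def lin (R : ℕ) : ℝ[X] := ∏ i ∈ Finset.range R, (C 1 + C (-(1 / ((i : ℝ) + 1))) * X)

theorem natDegree_lin_factor (a b : ℝ) : (C a + C b * X : ℝ[X]).natDegree ≤ 1 := by
  rw [add_comm]
  exact natDegree_linear_le

theorem lin_natDegree (R : ℕ) : (lin R).natDegree ≤ R := by
  unfold lin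
  refine (natDegree_prod_le _ _).trans ?_
  calc ∑ i ∈ Finset.range R, (C 1 + C (-(1 / ((i : ℝ) + 1))) * X : ℝ[X]).natDegree
      ≤ ∑ _i ∈ Finset.range R, 1 := Finset.sum_le_sum fun i _ => natDegree_lin_factor _ _
    _ = R := by simp

theorem lin_eval_zero (R : ℕ) : (lin R).eval 0 = 1 := by
  unfold lin
  rw [eval_prod]
  simp

theorem one_div_succ_le (i : ℕ) : 1 / ((i : ℝ) + 1) ≤ 1 := by
  rw [div_le_one (by positivity)]
  linarith [(Nat.cast_nonneg i : (0 : ℝ) ≤ i)]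

theorem lin_eval_eq_zero (R x : ℕ) (hx1 : 1 ≤ x) (hxR : x ≤ R) : (lin R).eval (x : ℝ) = 0 := by
  unfold lin
  rw [eval_prod]
  apply Finset.prod_eq_zero (i := x - 1)
  · rw [Finset.mem_range]; omega
  · have hx0 : (x : ℝ) ≠ 0 := by positivity
    simp only [eval_add, eval_C, eval_mul, eval_X]
    have h1 : ((x - 1 : ℕ) : ℝ) + 1 = x := by
      rw [Nat.cast_sub hx1]
      push_cast
      ring
    rw [h1, neg_mul, one_div, inv_mul_cancel₀ hx0]
    ring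

theorem lin_eval_le (R x q : ℕ) (Q : ℝ) (hQ : (q : ℝ) + 1 ≤ Q) (hQ2 : 2 ≤ Q) (hxq : x ≤ q) :
    |(lin R).eval (x : ℝ)| ≤ Q ^ R := by
  unfold lin
  rw [eval_prod, Finset.abs_prod]
  calc ∏ i ∈ Finset.range R, |(C 1 + C (-(1 / ((i : ℝ) + 1))) * X : ℝ[X]).eval (x : ℝ)|
      ≤ ∏ _i ∈ Finset.range R, Q := by
        apply Finset.prod_le_prod
        · intro i _; exact abs_nonneg _
        · intro i hi
          simp only [eval_add, eval_C, eval_mul, eval_X]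
          have h1 : (x : ℝ) ≤ q := by exact_mod_cast hxq
          have h2 : 0 ≤ 1 / ((i : ℝ) + 1) * x := by positivity
          have h3 : 1 / ((i : ℝ) + 1) * x ≤ x :=
            mul_le_of_le_one_left (Nat.cast_nonneg x) (one_div_succ_le i)
          rw [abs_le]
          constructor <;> linarith
    _ = Q ^ R := by simp

theorem lin_dom (R q : ℕ) (Q : ℝ) (hQ : (q : ℝ) + 1 ≤ Q) : Dom (q : ℝ) (lin R) (Q ^ R) := by
  unfold lin
  apply Dom.prod (Nat.cast_nonneg q)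
  intro i
  refine ((Dom.const (q : ℝ) 1).add (Dom.X_mul (q : ℝ) _)).mono ?_
  rw [abs_one, abs_neg, abs_of_pos (by positivity)]
  have h3 : 1 / ((i : ℝ) + 1) * q ≤ q :=
    mul_le_of_le_one_left (Nat.cast_nonneg q) (one_div_succ_le i)
  linarith

theorem g_dom (R q : ℕ) (Q S : ℝ) (hQ : (q : ℝ) + 1 ≤ Q) (hS : 1 ≤ S) (hR : (R : ℝ) ≤ 2 * S) :
    Dom (q : ℝ) (C (1 + R / S) + C (-(1 / S)) * X) (Q + 2) := by
  have hS0 : 0 < S := by linarith
  refine ((Dom.const (q : ℝ) _).add (Dom.X_mul (q : ℝ) _)).mono ?_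
  rw [abs_of_pos (by positivity), abs_neg, abs_of_pos (by positivity)]
  have h1 : (R : ℝ) / S ≤ 2 := by
    rw [div_le_iff₀ hS0]
    exact hR
  have h2 : 1 / S * q ≤ q := by
    have : 1 / S ≤ 1 := by rw [div_le_one hS0]; exact hS
    exact mul_le_of_le_one_left (Nat.cast_nonneg q) this
  linarith

theorem chb_dom' (q : ℕ) (Q c : ℝ) (hQ2 : 2 ≤ Q) (g : ℝ[X]) (hg : Dom (q : ℝ) g (Q + 2))
    (hc : 1 ≤ c) (j : ℕ) : Dom (q : ℝ) (C c⁻¹ * chb g j) (Q ^ (4 * 2 ^ j)) := by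
  have hq0 : (0 : ℝ) ≤ q := Nat.cast_nonneg q
  have hd3 : Dom (q : ℝ) (chb g j) (Q ^ (4 * 2 ^ j)) := by
    refine (chb_dom hq0 g (Q + 2) (by linarith) hg j).mono ?_
    have h1 : 3 * (Q + 2) ≤ Q ^ 4 := by
      have h0 : 4 ≤ Q ^ 2 := by nlinarith
      have h5 : Q ^ 4 = Q ^ 2 * Q ^ 2 := by ring
      nlinarith
    have h2 : (3 * (Q + 2)) ^ (2 ^ j) ≤ (Q ^ 4) ^ (2 ^ j) :=
      pow_le_pow_left₀ (by positivity) h1 _
    rw [← pow_mul] at h2
    have h3 : 0 ≤ (3 * (Q + 2)) ^ (2 ^ j) := by positivity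
    linarith
  refine ((Dom.const (q : ℝ) c⁻¹).mul hq0 hd3).mono ?_
  have h1 : |c⁻¹| ≤ 1 := by
    rw [abs_inv, abs_of_pos (by linarith)]
    exact inv_le_one_of_one_le₀ hc
  exact mul_le_of_le_one_left (by positivity) h1

/-- numerical bound of the degree -/
theorem deg_bound (L Λ S R t w : ℝ) (hL0 : 0 ≤ L) (hΛ : 1 ≤ Λ) (hS : Λ ≤ S) (hR0 : 0 ≤ R)
    (hR2 : R ≤ Λ + 1) (ht0 : 0 ≤ t)
    (ht2 : t ≤ (R * L + Λ) / Real.log 2 + 1) (hw : w ≤ 2 * √(S / Λ)) :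
    R + w * t ≤ 8 * (L + 1) * √(S * Λ) := by
  have hΛ0 : 0 < Λ := by linarith
  have hS0 : 0 < S := by linarith
  have hlog2 : 0 < Real.log 2 := Real.log_pos (by norm_num)
  have h1 : Λ ≤ √(S * Λ) := by
    apply Real.le_sqrt_of_sq_le
    nlinarith
  have h2 : t ≤ Λ * (2.9 * L + 2.45) := by
    refine ht2.trans ?_
    have h3 : (R * L + Λ) / Real.log 2 ≤ (R * L + Λ) * 1.45 := by
      rw [div_le_iff₀ hlog2]
      have h4 := Real.log_two_gt_d9
      have h5 : 0 ≤ R * L + Λ := by positivity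
      nlinarith
    have h6 : R * L ≤ (2 * Λ) * L := mul_le_mul_of_nonneg_right (by linarith) hL0
    nlinarith
  have h3 : √(S / Λ) * Λ = √(S * Λ) := by
    have h4 : S * Λ = (S / Λ) * Λ ^ 2 := by field_simp
    rw [h4, Real.sqrt_mul (by positivity), Real.sqrt_sq hΛ0.le]
  have h5 : w * t ≤ 2 * √(S / Λ) * (Λ * (2.9 * L + 2.45)) :=
    mul_le_mul hw h2 ht0 (by positivity)
  have h6 : 2 * √(S / Λ) * (Λ * (2.9 * L + 2.45)) = 2 * (2.9 * L + 2.45) * √(S * Λ) := by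
    rw [← h3]; ring
  have h7 : 0 ≤ √(S * Λ) := Real.sqrt_nonneg _
  have h8 : R ≤ 2 * √(S * Λ) := by linarith
  rw [h6] at h5
  have h9 : 0 ≤ L * √(S * Λ) := mul_nonneg hL0 h7
  nlinarith

/-- the choice of the Chebyshev index -/
theorem exists_index (S Λ R : ℝ) (hΛ : 1 ≤ Λ) (hS : Λ ≤ S) (hR1 : Λ ≤ R) :
    ∃ j : ℕ, S / R ≤ 4 ^ j ∧ (2 : ℝ) ^ j ≤ 2 * √(S / Λ) := by
  have hΛ0 : 0 < Λ := by linarith
  have hS0 : 0 < S := by linarith
  have h1 : 1 ≤ √(S / Λ) := by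
    rw [Real.one_le_sqrt, one_le_div hΛ0]
    exact hS
  rcases le_or_gt (S / R) 1 with h | h
  · exact ⟨0, by simpa using h, by simp; linarith⟩
  · obtain ⟨n, hn1, hn2⟩ := exists_nat_pow_near h.le (by norm_num : (1 : ℝ) < 4)
    refine ⟨n + 1, hn2.le, ?_⟩
    rw [pow_succ, mul_comm]
    apply mul_le_mul_of_nonneg_left _ (by norm_num)
    apply Real.le_sqrt_of_sq_le
    calc ((2 : ℝ) ^ n) ^ 2 = 4 ^ n := by rw [← pow_mul, mul_comm, pow_mul]; norm_num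
      _ ≤ S / R := hn1
      _ ≤ S / Λ := div_le_div_of_nonneg_left hS0.le hΛ0 hR1

theorem exists_poly (q : ℕ) (Q Λ S : ℝ) (hQ : (q : ℝ) + 1 ≤ Q) (hQ2 : 2 ≤ Q)
    (hΛ : 1 ≤ Λ) (hS : Λ ≤ S) :
    ∃ p : Polynomial ℝ, p.eval 0 = 1 ∧
      (∀ x : ℕ, 1 ≤ x → (x : ℝ) < S → x ≤ q → |p.eval (x : ℝ)| ≤ Real.exp (-Λ)) ∧
      (p.natDegree : ℝ) ≤ 8 * (Real.log Q + 1) * √(S * Λ) ∧
      (∑ m ∈ Finset.range (p.natDegree + 1), |p.coeff m| * (q : ℝ) ^ m)
        ≤ Real.exp (4 * Real.log Q * (8 * (Real.log Q + 1) * √(S * Λ))) := by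
  have hq0 : (0 : ℝ) ≤ q := Nat.cast_nonneg q
  have hS1 : 1 ≤ S := hΛ.trans hS
  have hS0 : 0 < S := by linarith
  have hΛ0 : 0 < Λ := by linarith
  have hQ0 : 0 < Q := by linarith
  obtain ⟨L, hL⟩ : ∃ L, L = Real.log Q := ⟨_, rfl⟩
  have hL0 : 0 ≤ L := by rw [hL]; exact Real.log_nonneg (by linarith)
  rw [← hL]
  obtain ⟨R, hR1, hR2⟩ : ∃ R : ℕ, Λ ≤ R ∧ (R : ℝ) ≤ Λ + 1 :=
    ⟨⌈Λ⌉₊, Nat.le_ceil Λ, (Nat.ceil_lt_add_one hΛ0.le).le⟩
  have hR0 : (0 : ℝ) < R := by linarith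
  obtain ⟨j, hj1, hj2⟩ := exists_index S Λ R hΛ hS hR1
  have hlog2 : 0 < Real.log 2 := Real.log_pos (by norm_num)
  obtain ⟨t, ht1, ht2⟩ : ∃ t : ℕ, (R * L + Λ) / Real.log 2 ≤ t ∧
      (t : ℝ) ≤ (R * L + Λ) / Real.log 2 + 1 :=
    ⟨⌈(R * L + Λ) / Real.log 2⌉₊, Nat.le_ceil _, (Nat.ceil_lt_add_one (by positivity)).le⟩
  have ht3 : R * L + Λ ≤ t * Real.log 2 := (div_le_iff₀ hlog2).1 ht1
  have hdeg : (R : ℝ) + 2 ^ j * t ≤ 8 * (L + 1) * √(S * Λ) :=
    deg_bound L Λ S R t (2 ^ j) hL0 hΛ hS hR0.le hR2 (Nat.cast_nonneg t) ht2 hj2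
  obtain ⟨g, hg⟩ : ∃ g : ℝ[X], g = C (1 + R / S) + C (-(1 / S)) * X := ⟨_, rfl⟩
  have hgx : ∀ x : ℝ, g.eval x = 1 + (R - x) / S := by
    intro x
    simp only [hg, eval_add, eval_C, eval_mul, eval_X]
    ring
  have hgd : g.natDegree ≤ 1 := by rw [hg]; exact natDegree_lin_factor _ _
  have hgdom : Dom (q : ℝ) g (Q + 2) := by
    rw [hg]; exact g_dom R q Q S hQ hS1 (by linarith)
  clear hg
  obtain ⟨c0, hc0⟩ : ∃ c0, c0 = (chb g j).eval 0 := ⟨_, rfl⟩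
  have hc0' : 2 ≤ c0 := by
    have h1 := chb_eval_ge g 0 (R / S) (by positivity) (by rw [hgx, sub_zero]) j
    have h2 : (1 : ℝ) ≤ 4 ^ j * (R / S) := by
      have h3 : S ≤ 4 ^ j * R := (div_le_iff₀ hR0).1 hj1
      rw [← mul_div_assoc, one_le_div hS0]
      exact h3
    rw [hc0]
    linarith
  have hc0pos : 0 < c0 := by linarith
  refine ⟨lin R * (C c0⁻¹ * chb g j) ^ t, ?_, ?_, ?_, ?_⟩
  · rw [eval_mul, lin_eval_zero, eval_pow, eval_mul, eval_C, ← hc0, inv_mul_cancel₀ hc0pos.ne',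
      one_pow, one_mul]
  · intro x hx1 hxS hxq
    rw [eval_mul, eval_pow, eval_mul, eval_C, abs_mul, abs_pow, abs_mul]
    rcases le_or_gt x R with hxR | hxR
    · rw [lin_eval_eq_zero R x hx1 hxR]
      simp only [abs_zero, zero_mul]
      exact (Real.exp_pos _).le
    · have hxR' : (R : ℝ) < x := by exact_mod_cast hxR
      have hP : |(lin R).eval (x : ℝ)| ≤ Q ^ R := lin_eval_le R x q Q hQ hQ2 hxq
      have hT : |(chb g j).eval (x : ℝ)| ≤ 1 := by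
        apply chb_eval_le
        rw [hgx]
        have h1 : (R - x : ℝ) / S ≤ 0 := div_nonpos_of_nonpos_of_nonneg (by linarith) hS0.le
        have h2 : -1 ≤ (R - x : ℝ) / S := by
          rw [le_div_iff₀ hS0]
          linarith
        rw [abs_le]
        constructor <;> linarith
      have hc : |c0⁻¹| * |(chb g j).eval (x : ℝ)| ≤ 1 / 2 := by
        have h1 : |c0⁻¹| ≤ 1 / 2 := by
          rw [abs_inv, abs_of_pos hc0pos, inv_le_comm₀ hc0pos (by norm_num)]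
          simpa using hc0'
        calc |c0⁻¹| * |(chb g j).eval (x : ℝ)| ≤ (1 / 2) * 1 :=
              mul_le_mul h1 hT (abs_nonneg _) (by norm_num)
          _ = 1 / 2 := by ring
      have hQR : Q ^ R = Real.exp (R * L) := by
        rw [hL, ← Real.log_pow, Real.exp_log (by positivity)]
      have h2t : ((1 : ℝ) / 2) ^ t = Real.exp (-(t * Real.log 2)) := by
        rw [Real.exp_neg, ← Real.log_pow, Real.exp_log (by positivity), one_div, inv_pow]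
      calc |(lin R).eval (x : ℝ)| * (|c0⁻¹| * |(chb g j).eval (x : ℝ)|) ^ t
          ≤ Q ^ R * (1 / 2) ^ t :=
            mul_le_mul hP (pow_le_pow_left₀ (by positivity) hc t) (by positivity) (by positivity)
        _ = Real.exp (R * L + -(t * Real.log 2)) := by rw [hQR, h2t, ← Real.exp_add]
        _ ≤ Real.exp (-Λ) := Real.exp_le_exp.2 (by linarith)
  · have hn : (lin R * (C c0⁻¹ * chb g j) ^ t).natDegree ≤ R + 2 ^ j * t := by
      refine natDegree_mul_le.trans (add_le_add (lin_natDegree R) ?_)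
      refine natDegree_pow_le.trans ?_
      rw [mul_comm]
      exact Nat.mul_le_mul_right _ ((natDegree_C_mul_le _ _).trans (chb_natDegree g hgd j))
    calc ((lin R * (C c0⁻¹ * chb g j) ^ t).natDegree : ℝ) ≤ ((R + 2 ^ j * t : ℕ) : ℝ) := by
          exact_mod_cast hn
      _ = (R : ℝ) + 2 ^ j * t := by push_cast; ring
      _ ≤ _ := hdeg
  · have hd1 : Dom (q : ℝ) (lin R) (Q ^ R) := lin_dom R q Q hQ
    have hd4 : Dom (q : ℝ) (C c0⁻¹ * chb g j) (Q ^ (4 * 2 ^ j)) :=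
      chb_dom' q Q c0 hQ2 g hgdom (by linarith) j
    have hd5 := hd1.mul hq0 (hd4.pow hq0 t)
    refine (hd5.sum_le hq0).trans ?_
    rw [← pow_mul, ← pow_add]
    have h1 : Q ^ (R + 4 * 2 ^ j * t) = Real.exp (((R + 4 * 2 ^ j * t : ℕ) : ℝ) * L) := by
      rw [hL, ← Real.log_pow, Real.exp_log (by positivity)]
    rw [h1]
    apply Real.exp_le_exp.2
    push_cast
    have h2 : 0 ≤ (2 : ℝ) ^ j * t := by positivity
    have h3 : (R : ℝ) + 4 * 2 ^ j * t ≤ 4 * (8 * (L + 1) * √(S * Λ)) := by nlinarith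
    calc ((R : ℝ) + 4 * 2 ^ j * t) * L ≤ 4 * (8 * (L + 1) * √(S * Λ)) * L :=
          mul_le_mul_of_nonneg_right h3 hL0
      _ = 4 * L * (8 * (L + 1) * √(S * Λ)) := by ring

end Vale.Agent.P368

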