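import Vale.Agent.P368.Tens
import Vale.Agent.P368.Supp
import Vale.Agent.P368.Poly

/-!
P368: the half step (piece H).
-/

open Matrix
open scoped Matrix.Norms.L2Operator

namespace Vale.Agent.P368

variable {ι : Type*} [Fintype ι] [DecidableEq ι]

/-- the number operator of `T` -/
noncomputable def numOp (T : Finset ι) : Op ι := Matrix.diagonal fun x => (wt T x : ℂ)

theorem numOp_mul_nAll (T R : Finset ι) :
    numOp T * nAll R = ∑ i ∈ T, (nAll (insert i R) : Op ι) := by
  have h1 : (∑ i ∈ T, (nAll (insert i R) : Op ι)) =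
      Matrix.diagonal (∑ i ∈ T, fun x : ι → Bool => if ∀ j ∈ insert i R, x j = true then (1 : ℂ) else 0) := by
    induction T using Finset.induction_on with
    | empty => simp
    | insert a s ha ih =>
      rw [Finset.sum_insert ha, Finset.sum_insert ha, ih, nAll, Matrix.diagonal_add]
      rfl
  rw [h1, numOp, nAll, Matrix.diagonal_mul_diagonal]
  congr 1
  funext x
  rw [Finset.sum_apply]
  unfold wt
  by_cases hR : ∀ j ∈ R, x j = true
  · rw [if_pos hR, mul_one, Finset.card_filter]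
    push_cast
    apply Finset.sum_congr rfl
    intro i _
    by_cases hi : x i = true
    · rw [if_pos hi, if_pos]
      intro j hj
      rcases Finset.mem_insert.1 hj with rfl | hj
      · exact hi
      · exact hR j hj
    · rw [if_neg hi, if_neg]
      intro h
      exact hi (h i (Finset.mem_insert_self _ _))
  · rw [if_neg hR, mul_zero]
    symm
    apply Finset.sum_eq_zero
    intro i _
    rw [if_neg]
    intro h
    exact hR fun j hj => h j (Finset.mem_insert_of_mem hj)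

/-- powers of the number operator of `T` transport to the weight of `T'` only with small
amplitude -/
theorem norm_Pge_numOp_pow (k : ℕ) (μ : ℝ) (hμ : 1 ≤ μ) (hloc : Loc ι k μ)
    (V : Op ι) (hV : Circ k V) (T T' : Finset ι) (y : ℝ) (hy1 : μ ≤ y)
    (G : Op ι) (hG : V * Ez T' * Vᴴ * G = G) (hG1 : ‖G‖ ≤ 1) (m : ℕ) :
    ∀ R : Finset ι, μ * (R.card + m) ≤ y →
      ‖Pge T' y * Vᴴ * (numOp T ^ m * nAll R) * G‖ ≤
        (Fintype.card ι : ℝ) ^ m * Real.exp (-y / μ) := by
  induction m with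
  | zero =>
    intro R hR
    have h1 := hloc Vᴴ hV.star T' R (nAll R) (suppOn_nAll R) (norm_nAll_le R) y hy1 (by simpa using hR)
    rw [Matrix.conjTranspose_conjTranspose] at h1
    have h2 : Pge T' y * Vᴴ * (numOp T ^ 0 * nAll R) * G =
        (Pge T' y * (Vᴴ * nAll R * V) * Ez T') * (Vᴴ * G) := by
      conv_lhs => rw [← hG]
      simp only [pow_zero, one_mul, mul_assoc]
    rw [h2]
    have h3 : ‖Vᴴ * G‖ ≤ 1 := by
      calc ‖Vᴴ * G‖ ≤ ‖Vᴴ‖ * ‖G‖ := norm_mul_le _ _
        _ ≤ 1 * 1 := by gcongr; exact hV.star.norm_le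
        _ = 1 := one_mul 1
    calc ‖(Pge T' y * (Vᴴ * nAll R * V) * Ez T') * (Vᴴ * G)‖
        ≤ ‖Pge T' y * (Vᴴ * nAll R * V) * Ez T'‖ * ‖Vᴴ * G‖ := norm_mul_le _ _
      _ ≤ Real.exp (-y / μ) * 1 := by gcongr
      _ = (Fintype.card ι : ℝ) ^ 0 * Real.exp (-y / μ) := by simp
  | succ m ih =>
    intro R hR
    have h1 : Pge T' y * Vᴴ * (numOp T ^ (m + 1) * nAll R) * G =
        ∑ i ∈ T, Pge T' y * Vᴴ * (numOp T ^ m * nAll (insert i R)) * G := by
      rw [pow_succ, mul_assoc (numOp T ^ m), numOp_mul_nAll, Finset.mul_sum, Finset.mul_sum,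
        Finset.sum_mul]
    rw [h1]
    have h2 : ∀ i ∈ T, ‖Pge T' y * Vᴴ * (numOp T ^ m * nAll (insert i R)) * G‖ ≤
        (Fintype.card ι : ℝ) ^ m * Real.exp (-y / μ) := by
      intro i _
      apply ih
      refine le_trans ?_ hR
      have h3 : ((insert i R).card : ℝ) ≤ R.card + 1 := by
        exact_mod_cast Finset.card_insert_le i R
      have hμ0 : 0 ≤ μ := by linarith
      apply mul_le_mul_of_nonneg_left _ hμ0
      push_cast
      linarith
    calc ‖∑ i ∈ T, Pge T' y * Vᴴ * (numOp T ^ m * nAll (insert i R)) * G‖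
        ≤ ∑ i ∈ T, ‖Pge T' y * Vᴴ * (numOp T ^ m * nAll (insert i R)) * G‖ := norm_sum_le _ _
      _ ≤ ∑ i ∈ T, (Fintype.card ι : ℝ) ^ m * Real.exp (-y / μ) := Finset.sum_le_sum h2
      _ = (T.card : ℝ) * ((Fintype.card ι : ℝ) ^ m * Real.exp (-y / μ)) := by
          rw [Finset.sum_const, nsmul_eq_mul]
      _ ≤ (Fintype.card ι : ℝ) * ((Fintype.card ι : ℝ) ^ m * Real.exp (-y / μ)) := by
          gcongr
          exact_mod_cast Finset.card_le_univ T
      _ = (Fintype.card ι : ℝ) ^ (m + 1) * Real.exp (-y / μ) := by ring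

/-- `p(N_T)` -/
noncomputable def polyOp (p : Polynomial ℝ) (T : Finset ι) : Op ι :=
  Matrix.diagonal fun x => ((p.eval (wt T x : ℝ) : ℝ) : ℂ)

theorem polyOp_eq_sum (p : Polynomial ℝ) (T : Finset ι) :
    (polyOp p T : Op ι) =
      ∑ m ∈ Finset.range (p.natDegree + 1), ((p.coeff m : ℝ) : ℂ) • (numOp T ^ m * nAll ∅) := by
  have h0 : (nAll (∅ : Finset ι) : Op ι) = 1 := by
    unfold nAll
    simp
  have h1 : ∀ s : Finset ℕ,
      (∑ m ∈ s, ((p.coeff m : ℝ) : ℂ) • (numOp T ^ m * nAll ∅ : Op ι)) =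
      Matrix.diagonal fun x => ∑ m ∈ s, ((p.coeff m : ℝ) : ℂ) * (wt T x : ℂ) ^ m := by
    intro s
    induction s using Finset.induction_on with
    | empty => simp
    | insert a s ha ih =>
      rw [Finset.sum_insert ha, ih, h0, mul_one, numOp, Matrix.diagonal_pow,
        ← Matrix.diagonal_smul, Matrix.diagonal_add]
      congr 1
      funext x
      rw [Finset.sum_insert ha]
      rfl
  rw [h1, polyOp]
  congr 1
  funext x
  rw [Polynomial.eval_eq_sum_range]
  push_cast
  rfl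

/-- constants of the iteration, `D = 64 (L+1)² (4L+1)² μ` -/
noncomputable def Dc (μ Q : ℝ) : ℝ := 64 * (Real.log Q + 1) ^ 2 * (4 * Real.log Q + 1) ^ 2 * μ

/-- the half step: `‖[M ≥ y] E G‖` is small if `P G = G` and `‖[N ≥ S] G‖` is small -/
theorem half_step (k : ℕ) (μ Q : ℝ) (hQ : (Fintype.card ι : ℝ) + 1 ≤ Q) (hQ2 : 2 ≤ Q)
    (hμ : 1 ≤ μ) (hloc : Loc ι k μ)
    (V : Op ι) (hV : Circ k V) (T T' : Finset ι) (Λ S δ r y : ℝ) (hΛ : 1 ≤ Λ) (hS : Λ ≤ S)
    (hr : r = 8 * (Real.log Q + 1) * √(S * Λ)) (hy : μ * (4 * Real.log Q + 1) * r ≤ y)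
    (G : Op ι) (hG : V * Ez T' * Vᴴ * G = G) (hG1 : ‖G‖ ≤ 1) (hδ : ‖Pge T S * G‖ ≤ δ) :
    ‖Pge T' y * (Vᴴ * Ez T * G)‖ ≤ 2 * Real.exp (-Λ) + Real.exp (4 * Real.log Q * r) * δ := by
  obtain ⟨p, hp0, hp1, hpd, hps⟩ := exists_poly (Fintype.card ι) Q Λ S hQ hQ2 hΛ hS
  rw [← hr] at hpd hps
  set L := Real.log Q with hL
  have hL0 : 0 ≤ L := Real.log_nonneg (by linarith)
  have hμ0 : 0 < μ := by linarith
  have hrΛ : Λ ≤ r := by
    rw [hr]
    have h1 : Λ ≤ √(S * Λ) := by
      apply Real.le_sqrt_of_sq_le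
      nlinarith
    nlinarith [Real.sqrt_nonneg (S * Λ)]
  have hr1 : 1 ≤ r := hΛ.trans hrΛ
  have hyμr : μ * r ≤ y := by
    refine le_trans ?_ hy
    have : μ * r * 1 ≤ μ * r * (4 * L + 1) := by
      apply mul_le_mul_of_nonneg_left (by linarith) (by positivity)
    linarith
  have hy1 : μ ≤ y := by nlinarith
  have hwt : ∀ x : ι → Bool, wt T x ≤ Fintype.card ι := fun x => by
    unfold wt
    exact Finset.card_le_univ _
  -- the bound for the polynomial part
  have hA : ‖Pge T' y * Vᴴ * polyOp p T * G‖ ≤ Real.exp (-Λ) := by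
    rw [polyOp_eq_sum, Finset.mul_sum, Finset.sum_mul]
    calc ‖∑ m ∈ Finset.range (p.natDegree + 1),
          Pge T' y * Vᴴ * (((p.coeff m : ℝ) : ℂ) • (numOp T ^ m * nAll ∅)) * G‖
        ≤ ∑ m ∈ Finset.range (p.natDegree + 1),
          ‖Pge T' y * Vᴴ * (((p.coeff m : ℝ) : ℂ) • (numOp T ^ m * nAll ∅)) * G‖ :=
          norm_sum_le _ _
      _ ≤ ∑ m ∈ Finset.range (p.natDegree + 1),
          (|p.coeff m| * (Fintype.card ι : ℝ) ^ m) * Real.exp (-y / μ) := by
          apply Finset.sum_le_sum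
          intro m hm
          rw [Matrix.mul_smul, Matrix.smul_mul, norm_smul, Complex.norm_real, Real.norm_eq_abs]
          rw [mul_assoc |p.coeff m|]
          apply mul_le_mul_of_nonneg_left _ (abs_nonneg _)
          apply norm_Pge_numOp_pow k μ hμ hloc V hV T T' y hy1 G hG hG1 m ∅
          have hmr : (m : ℝ) ≤ r := by
            refine le_trans ?_ hpd
            have := Finset.mem_range.1 hm
            exact_mod_cast (by omega : m ≤ p.natDegree)
          rw [Finset.card_empty, Nat.cast_zero, zero_add]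
          exact (mul_le_mul_of_nonneg_left hmr hμ0.le).trans hyμr
      _ = (∑ m ∈ Finset.range (p.natDegree + 1),
          (|p.coeff m| * (Fintype.card ι : ℝ) ^ m)) * Real.exp (-y / μ) := by
          rw [Finset.sum_mul]
      _ ≤ Real.exp (4 * L * r) * Real.exp (-y / μ) := by gcongr
      _ = Real.exp (4 * L * r + -y / μ) := (Real.exp_add _ _).symm
      _ ≤ Real.exp (-Λ) := by
          apply Real.exp_le_exp.2
          have h1 : (4 * L + 1) * r ≤ y / μ := by
            rw [le_div_iff₀ hμ0]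
            linarith
          have h2 : -y / μ = -(y / μ) := by ring
          rw [h2]
          nlinarith
  -- the error `E - p(N)`
  have hdiff : Ez T - polyOp p T = Matrix.diagonal fun x : ι → Bool =>
      ((if wt T x = 0 then (1 : ℂ) else 0) - ((p.eval (wt T x : ℝ) : ℝ) : ℂ)) := by
    rw [Ez, polyOp, Matrix.diagonal_sub]
  have hB1 : ‖(Ez T - polyOp p T) * (1 - Pge T S)‖ ≤ Real.exp (-Λ) := by
    have h1 : (1 - Pge T S : Op ι) =
        Matrix.diagonal fun x => 1 - (if S ≤ (wt T x : ℝ) then (1 : ℂ) else 0) := by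
      rw [Pge, ← Matrix.diagonal_one, Matrix.diagonal_sub]
    rw [hdiff, h1, Matrix.diagonal_mul_diagonal, Matrix.l2_opNorm_diagonal]
    rw [pi_norm_le_iff_of_nonneg (Real.exp_pos _).le]
    intro x
    by_cases h2 : S ≤ (wt T x : ℝ)
    · simp [h2, (Real.exp_pos (-Λ)).le]
    · by_cases h3 : wt T x = 0
      · simp [h3, hp0, (Real.exp_pos (-Λ)).le]
      · rw [if_neg h2, if_neg h3, sub_zero, mul_one, zero_sub, norm_neg, Complex.norm_real,
          Real.norm_eq_abs]
        exact hp1 _ (Nat.one_le_iff_ne_zero.2 h3) (not_le.1 h2) (hwt x)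
  have hB2 : ‖(Ez T - polyOp p T) * Pge T S‖ ≤ Real.exp (4 * L * r) := by
    rw [hdiff, Pge, Matrix.diagonal_mul_diagonal, Matrix.l2_opNorm_diagonal]
    rw [pi_norm_le_iff_of_nonneg (Real.exp_pos _).le]
    intro x
    by_cases h2 : S ≤ (wt T x : ℝ)
    · have h3 : wt T x ≠ 0 := by
        intro h0
        rw [h0] at h2
        simp only [Nat.cast_zero] at h2
        linarith
      rw [if_pos h2, if_neg h3, mul_one, zero_sub, norm_neg, Complex.norm_real,
          Real.norm_eq_abs]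
      refine le_trans ?_ hps
      rw [Polynomial.eval_eq_sum_range]
      refine (Finset.abs_sum_le_sum_abs _ _).trans ?_
      apply Finset.sum_le_sum
      intro m _
      rw [abs_mul, abs_pow, Nat.abs_cast]
      gcongr
      exact hwt x
    · rw [if_neg h2, mul_zero, norm_zero]
      exact (Real.exp_pos _).le
  have hPP : Pge T S * Pge T S = (Pge T S : Op ι) := by
    rw [Pge, Matrix.diagonal_mul_diagonal]
    congr 1
    funext x
    split_ifs <;> simp
  have hB : ‖(Ez T - polyOp p T) * G‖ ≤ Real.exp (-Λ) + Real.exp (4 * L * r) * δ := by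
    have h1 : (Ez T - polyOp p T) * G =
        (Ez T - polyOp p T) * (1 - Pge T S) * G +
          (Ez T - polyOp p T) * Pge T S * (Pge T S * G) := by
      have h2 : (Ez T - polyOp p T) * Pge T S * (Pge T S * G) =
          (Ez T - polyOp p T) * Pge T S * G := by
        rw [mul_assoc, ← mul_assoc (Pge T S) (Pge T S) G, hPP, ← mul_assoc]
      rw [h2]
      noncomm_ring
    rw [h1]
    calc ‖(Ez T - polyOp p T) * (1 - Pge T S) * G +
          (Ez T - polyOp p T) * Pge T S * (Pge T S * G)‖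
        ≤ ‖(Ez T - polyOp p T) * (1 - Pge T S) * G‖ +
          ‖(Ez T - polyOp p T) * Pge T S * (Pge T S * G)‖ := norm_add_le _ _
      _ ≤ ‖(Ez T - polyOp p T) * (1 - Pge T S)‖ * ‖G‖ +
          ‖(Ez T - polyOp p T) * Pge T S‖ * ‖Pge T S * G‖ := by
          gcongr <;> exact norm_mul_le _ _
      _ ≤ Real.exp (-Λ) * 1 + Real.exp (4 * L * r) * δ := by gcongr
      _ = _ := by rw [mul_one]
  have hsplit : Pge T' y * (Vᴴ * Ez T * G) =
      Pge T' y * Vᴴ * ((Ez T - polyOp p T) * G) + Pge T' y * Vᴴ * polyOp p T * G := by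
    noncomm_ring
  rw [hsplit]
  have hPV : ‖Pge T' y * Vᴴ‖ ≤ 1 := by
    calc ‖Pge T' y * Vᴴ‖ ≤ ‖(Pge T' y : Op ι)‖ * ‖Vᴴ‖ := norm_mul_le _ _
      _ ≤ 1 * 1 := by
          gcongr
          · exact norm_Pge_le _ _
          · exact hV.star.norm_le
      _ = 1 := one_mul 1
  have hδ0 : 0 ≤ δ := (norm_nonneg _).trans hδ
  calc ‖Pge T' y * Vᴴ * ((Ez T - polyOp p T) * G) + Pge T' y * Vᴴ * polyOp p T * G‖
      ≤ ‖Pge T' y * Vᴴ * ((Ez T - polyOp p T) * G)‖ + ‖Pge T' y * Vᴴ * polyOp p T * G‖ :=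
        norm_add_le _ _
    _ ≤ ‖Pge T' y * Vᴴ‖ * ‖(Ez T - polyOp p T) * G‖ + Real.exp (-Λ) := by
        gcongr
        exact norm_mul_le _ _
    _ ≤ 1 * (Real.exp (-Λ) + Real.exp (4 * L * r) * δ) + Real.exp (-Λ) := by gcongr
    _ = 2 * Real.exp (-Λ) + Real.exp (4 * L * r) * δ := by ring

end Vale.Agent.P368

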