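import Vale.Agent.P368.Half

/-!
P368: the iteration (piece H2).
-/

open Matrix
open scoped Matrix.Norms.L2Operator

namespace Vale.Agent.P368

variable {ι : Type*} [Fintype ι] [DecidableEq ι]

/-- alternating products: `altP (2 i) V T T' = (P E) ^ (i + 1)`, `P = V E_{T'} Vᴴ`, `E = E_T` -/
noncomputable def altP : ℕ → Op ι → Finset ι → Finset ι → Op ι
  | 0, V, T, T' => V * Ez T' * Vᴴ * Ez T
  | m + 1, V, T, T' => V * Ez T' * altP m Vᴴ T' T

theorem altP_succ (m : ℕ) (V : Op ι) (T T' : Finset ι) :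
    altP (m + 1) V T T' = V * Ez T' * altP m Vᴴ T' T := rfl

theorem altP_two (m : ℕ) (V : Op ι) (T T' : Finset ι) :
    altP (m + 2) V T T' = (V * Ez T' * Vᴴ * Ez T) * altP m V T T' := by
  rw [altP_succ, altP_succ, Matrix.conjTranspose_conjTranspose]
  simp only [mul_assoc]

theorem altP_even (i : ℕ) (V : Op ι) (T T' : Finset ι) :
    altP (2 * i) V T T' = ((V * Ez T' * Vᴴ) * Ez T) ^ (i + 1) := by
  induction i with
  | zero => simp [altP]
  | succ i ih =>
    rw [show 2 * (i + 1) = 2 * i + 2 by ring, altP_two, ih, pow_succ' _ (i + 1)]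

theorem altP_left {k : ℕ} (m : ℕ) {V : Op ι} (hV : Circ k V) (T T' : Finset ι) :
    V * Ez T' * Vᴴ * altP m V T T' = altP m V T T' := by
  have h1 : ∀ Y : Op ι, V * Ez T' * Vᴴ * (V * Ez T' * Y) = V * Ez T' * Y := by
    intro Y
    calc V * Ez T' * Vᴴ * (V * Ez T' * Y) = V * Ez T' * (Vᴴ * V) * Ez T' * Y := by
          simp only [mul_assoc]
      _ = V * (Ez T' * Ez T') * Y := by rw [hV.unitary.1]; simp only [mul_assoc, mul_one]
      _ = V * Ez T' * Y := by rw [Ez_mul_Ez]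
  cases m with
  | zero =>
    have := h1 (Vᴴ * Ez T)
    simpa only [altP, mul_assoc] using this
  | succ m => exact h1 _

theorem norm_altP_le {k : ℕ} (m : ℕ) : ∀ {V : Op ι} (_ : Circ k V) (T T' : Finset ι),
    ‖altP m V T T'‖ ≤ 1 := by
  induction m with
  | zero =>
    intro V hV T T'
    have h1 := hV.norm_le
    have h2 := hV.star.norm_le
    have h3 := norm_Ez_le T'
    have h4 := norm_Ez_le T
    calc ‖altP 0 V T T'‖ ≤ ‖V‖ * ‖(Ez T' : Op ι)‖ * ‖Vᴴ‖ * ‖(Ez T : Op ι)‖ := by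
          simp only [altP]
          refine (norm_mul_le _ _).trans ?_
          gcongr
          refine (norm_mul_le _ _).trans ?_
          gcongr
          exact norm_mul_le _ _
      _ ≤ 1 * 1 * 1 * 1 := by gcongr
      _ = 1 := by norm_num
  | succ m ih =>
    intro V hV T T'
    have h1 := hV.norm_le
    have h3 := norm_Ez_le T'
    have h4 := ih hV.star T' T
    calc ‖altP (m + 1) V T T'‖ ≤ ‖V‖ * ‖(Ez T' : Op ι)‖ * ‖altP m Vᴴ T' T‖ := by
          rw [altP_succ]
          refine (norm_mul_le _ _).trans ?_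
          gcongr
          exact norm_mul_le _ _
      _ ≤ 1 * 1 * 1 := by gcongr
      _ = 1 := by norm_num

omit [DecidableEq ι] in
theorem Pge_eq_zero_of_card_lt (T : Finset ι) {y : ℝ} (hy : (Fintype.card ι : ℝ) < y) :
    (Pge T y : Op ι) = 0 := by
  unfold Pge
  rw [Matrix.diagonal_eq_zero]
  funext x
  have h1 : (wt T x : ℝ) ≤ Fintype.card ι := by
    have : wt T x ≤ Fintype.card ι := by
      unfold wt
      exact (Finset.card_le_univ _)
    exact_mod_cast this
  simp only [Pi.zero_apply]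
  rw [if_neg]
  linarith

theorem one_le_log_stuff {Q : ℝ} (hQ2 : 2 ≤ Q) : 0 ≤ Real.log Q := Real.log_nonneg (by linarith)

theorem Dc_ge_mu {μ Q : ℝ} (hQ2 : 2 ≤ Q) (hμ : 1 ≤ μ) : μ ≤ Dc μ Q := by
  have hL := one_le_log_stuff hQ2
  unfold Dc
  have h1 : (1 : ℝ) ≤ (Real.log Q + 1) ^ 2 := by nlinarith
  have h2 : (1 : ℝ) ≤ (4 * Real.log Q + 1) ^ 2 := by nlinarith
  have h3 : (1 : ℝ) ≤ (Real.log Q + 1) ^ 2 * (4 * Real.log Q + 1) ^ 2 := one_le_mul_of_one_le_of_one_le h1 h2
  nlinarith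

/-- the iteration, general form -/
theorem iterate_aux (k : ℕ) (μ Q : ℝ) (hQ : (Fintype.card ι : ℝ) + 1 ≤ Q) (hQ2 : 2 ≤ Q)
    (hμ : 1 ≤ μ) (hloc : Loc ι k μ) (m : ℕ) :
    ∀ (V : Op ι) (_ : Circ k V) (T T' : Finset ι) (Λ y : ℝ) (_ : 1 ≤ Λ) (_ : 0 ≤ y)
      (_ : Λ ^ m * (Dc μ Q ^ (m * (m + 3) / 2) * Q) ≤ y ^ (m + 1)),
    ‖Pge T y * altP m V T T'‖ ≤ 2 * m * Real.exp (-Λ) := by
  set D := Dc μ Q with hD
  have hDμ : μ ≤ D := Dc_ge_mu hQ2 hμ
  have hD1 : 1 ≤ D := hμ.trans hDμ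
  set L := Real.log Q with hL
  have hL0 : 0 ≤ L := one_le_log_stuff hQ2
  induction m with
  | zero =>
    intro V hV T T' Λ y hΛ hy h
    have h1 : Q ≤ y := by simpa using h
    rw [Pge_eq_zero_of_card_lt T (by linarith)]
    simp
  | succ m ih =>
    intro V hV T T' Λ y hΛ hy h
    have hexp : (m + 1) * (m + 1 + 3) / 2 = m * (m + 3) / 2 + (m + 2) := by
      have : (m + 1) * (m + 1 + 3) = m * (m + 3) + (m + 2) * 2 := by ring
      rw [this, Nat.add_mul_div_right _ _ (by norm_num)]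
    rw [hexp] at h
    set c := m * (m + 3) / 2 with hc
    by_cases hyQ : Q ≤ y
    · rw [Pge_eq_zero_of_card_lt T (by linarith)]
      simp only [zero_mul, norm_zero]
      positivity
    rw [not_le] at hyQ
    have hQ0 : 0 < Q := by linarith
    have hD0 : 0 < D := by linarith
    have hμ0 : 0 < μ := by linarith
    have hΛ0 : 0 < Λ := by linarith
    -- `y > 0`
    have hy0 : 0 < y := by
      rcases hy.lt_or_eq with h1 | h1
      · exact h1
      · exfalso
        rw [← h1] at h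
        have : (0 : ℝ) < Λ ^ (m + 1) * (D ^ (c + (m + 2)) * Q) := by positivity
        simp at h
        linarith
    -- `Λ * D ≤ y`
    have hyD : Λ ^ 2 * (D * μ) ≤ y ^ 2 := by
      by_contra hcon
      rw [not_le] at hcon
      have h1 : y < Λ * D := by
        have : y ^ 2 < (Λ * D) ^ 2 := by
          calc y ^ 2 < Λ ^ 2 * (D * μ) := hcon
            _ ≤ Λ ^ 2 * (D * D) := by gcongr
            _ = (Λ * D) ^ 2 := by ring
        exact lt_of_pow_lt_pow_left₀ 2 (by positivity) this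
      have h2 : y ^ (m + 1) < (Λ * D) ^ (m + 1) := pow_lt_pow_left₀ h1 hy (by omega)
      have h3 : y ^ (m + 1 + 1) < Λ ^ (m + 1) * (D ^ (c + (m + 2)) * Q) := by
        calc y ^ (m + 1 + 1) = y ^ (m + 1) * y := pow_succ _ _
          _ < (Λ * D) ^ (m + 1) * Q := by
              apply mul_lt_mul'' h2 hyQ (by positivity) hy
          _ = Λ ^ (m + 1) * (D ^ (m + 1) * Q) := by ring
          _ ≤ Λ ^ (m + 1) * (D ^ (c + (m + 2)) * Q) := by
              have h9 : D ^ (m + 1) ≤ D ^ (c + (m + 2)) := pow_le_pow_right₀ hD1 (by omega)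
              gcongr
      linarith
    set r := y / (μ * (4 * L + 1)) with hr
    set S := y ^ 2 / (D * μ * Λ) with hS
    have h4L : 0 < 4 * L + 1 := by linarith
    have hr0 : 0 < r := by positivity
    have hS0 : 0 < S := by positivity
    have hSr : r = 8 * (L + 1) * √(S * Λ) := by
      have h1 : S * Λ = (r / (8 * (L + 1))) ^ 2 := by
        rw [hS, hr, hD]
        unfold Dc
        rw [← hL]
        field_simp
        ring
      rw [h1, Real.sqrt_sq (by positivity)]
      field_simp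
    have hSΛ : Λ ≤ S := by
      rw [hS, le_div_iff₀ (by positivity)]
      calc Λ * (D * μ * Λ) = Λ ^ 2 * (D * μ) := by ring
        _ ≤ y ^ 2 := hyD
    have hyμ : μ ≤ y := by
      have : μ ^ 2 ≤ y ^ 2 := by
        calc μ ^ 2 = 1 ^ 2 * (μ * μ) := by ring
          _ ≤ Λ ^ 2 * (D * μ) := by gcongr
          _ ≤ y ^ 2 := hyD
      exact (pow_le_pow_iff_left₀ hμ0.le hy (by norm_num)).1 this
    have hΛ' : 1 ≤ y / μ := by rwa [one_le_div hμ0]
    have hrΛ : Λ ≤ r := by
      rw [hSr]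
      have h1 : Λ ≤ √(S * Λ) := by
        apply Real.le_sqrt_of_sq_le
        nlinarith
      nlinarith [Real.sqrt_nonneg (S * Λ)]
    -- the induction hypothesis at `(S, y / μ)`
    have hind := ih Vᴴ hV.star T' T (y / μ) S hΛ' hS0.le (by
      have h5 : (y / μ) ^ m * (D ^ c * Q) * (Λ ^ (m + 1) * D ^ (m + 2)) ≤
          S ^ (m + 1) * (Λ ^ (m + 1) * D ^ (m + 2)) := by
        have h6 : S ^ (m + 1) * (Λ ^ (m + 1) * D ^ (m + 2)) =
            (y / μ) ^ m * (y ^ (m + 1 + 1) * (D / μ)) := by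
          rw [hS, div_pow, div_pow, mul_pow, mul_pow]
          field_simp
          ring
        rw [h6]
        calc (y / μ) ^ m * (D ^ c * Q) * (Λ ^ (m + 1) * D ^ (m + 2))
            = (y / μ) ^ m * ((Λ ^ (m + 1) * (D ^ (c + (m + 2)) * Q)) * 1) := by
              rw [pow_add]; ring
          _ ≤ (y / μ) ^ m * (y ^ (m + 1 + 1) * (D / μ)) := by
              gcongr
              rwa [one_le_div hμ0]
      exact le_of_mul_le_mul_right h5 (by positivity))
    have hstep := half_step k μ Q hQ hQ2 hμ hloc Vᴴ hV.star T' T Λ S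
      (2 * m * Real.exp (-(y / μ))) r y hΛ hSΛ hSr
      (by rw [hr, ← hL]; exact le_of_eq (by field_simp))
      (altP m Vᴴ T' T) (by
        have := altP_left m hV.star T' T
        exact this) (norm_altP_le m hV.star T' T) hind
    rw [Matrix.conjTranspose_conjTranspose, ← altP_succ] at hstep
    refine hstep.trans ?_
    have h7 : Real.exp (4 * L * r) * (2 * m * Real.exp (-(y / μ))) ≤ 2 * m * Real.exp (-Λ) := by
      have h8 : Real.exp (4 * L * r) * Real.exp (-(y / μ)) = Real.exp (-r) := by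
        rw [← Real.exp_add]
        congr 1
        rw [hr]
        field_simp
        ring
      calc Real.exp (4 * L * r) * (2 * m * Real.exp (-(y / μ)))
          = 2 * m * (Real.exp (4 * L * r) * Real.exp (-(y / μ))) := by ring
        _ = 2 * m * Real.exp (-r) := by rw [h8]
        _ ≤ 2 * m * Real.exp (-Λ) := by
            gcongr
    push_cast
    linarith

/-- the iteration -/
theorem iterate (k : ℕ) (μ Q : ℝ) (hQ : (Fintype.card ι : ℝ) + 1 ≤ Q) (hQ2 : 2 ≤ Q)
    (hμ : 1 ≤ μ) (hloc : Loc ι k μ) (V : Op ι) (hV : Circ k V) (T T' : Finset ι)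
    (i : ℕ) (Λ y : ℝ) (hΛ : 1 ≤ Λ)
    (h : Λ ^ (2 * i) * (Dc μ Q ^ (i * (2 * i + 3)) * Q) ≤ y ^ (2 * i + 1)) (hy : 0 ≤ y) :
    ‖Pge T y * ((V * Ez T' * Vᴴ) * Ez T) ^ (i + 1)‖ ≤ 4 * i * Real.exp (-Λ) := by
  have h1 := iterate_aux k μ Q hQ hQ2 hμ hloc (2 * i) V hV T T' Λ y hΛ hy (by
    have : 2 * i * (2 * i + 3) / 2 = i * (2 * i + 3) := by
      rw [mul_assoc]
      exact Nat.mul_div_cancel_left _ (by norm_num)
    rw [this]
    exact h)
  rw [altP_even] at h1
  refine h1.trans (le_of_eq ?_)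
  push_cast
  ring

end Vale.Agent.P368

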