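import Vale.Agent.P368.Reduce

/-! The parity correlation is a matrix element controlled by `Loc`. -/

open Matrix
open scoped Matrix.Norms.L2Operator

namespace Vale.Agent.P368

variable {ι : Type*} [Fintype ι] [DecidableEq ι]

theorem norm_entry_le (A : Op ι) (x y : ι → Bool) : ‖A x y‖ ≤ ‖A‖ := by
  have h := Matrix.l2_opNorm_mulVec A (EuclideanSpace.single y (1 : ℂ))
  have h1 : ‖(EuclideanSpace.single y (1 : ℂ) : EuclideanSpace ℂ (ι → Bool))‖ = 1 := by simp
  rw [h1, mul_one] at h
  refine le_trans ?_ h
  have h2 := PiLp.norm_apply_le ((EuclideanSpace.equiv (ι → Bool) ℂ).symm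
    (A *ᵥ (EuclideanSpace.single y (1 : ℂ) : EuclideanSpace ℂ (ι → Bool)).ofLp)) x
  refine le_trans (le_of_eq ?_) h2
  simp

/-- Pauli Z -/
def pz : Matrix Bool Bool ℂ := Matrix.diagonal fun b => if b then -1 else 1

theorem pz_star : pzᴴ = pz := by
  ext a b
  cases a <;> cases b <;> simp [pz, Matrix.conjTranspose_apply]

theorem pz_sq : pz * pz = 1 := by
  ext a b
  cases a <;> cases b <;> simp [pz, Matrix.mul_apply]

theorem pz_mem : pz ∈ Matrix.unitaryGroup Bool ℂ := by
  rw [Matrix.mem_unitaryGroup_iff]
  change pz * pzᴴ = 1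
  rw [pz_star, pz_sq]

/-- `Z` on the output qubit -/
noncomputable def zAt (q : ι) : Op ι := tens (Function.update (fun _ => (1 : Matrix Bool Bool ℂ)) q pz)

theorem zAt_eq_diagonal (q : ι) :
    (zAt q : Op ι) = Matrix.diagonal fun x => if x q then (-1 : ℂ) else 1 := by
  ext x y
  rw [zAt, tens_update]
  by_cases hxy : x = y
  · subst hxy
    simp [pz]
  · rw [Matrix.diagonal_apply_ne _ hxy]
    split_ifs with h
    · have : x q ≠ y q := by
        intro hq
        apply hxy
        funext j
        by_cases hj : j = q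
        · rw [hj, hq]
        · exact h j hj
      simp [pz, Matrix.diagonal_apply_ne _ this]
    · rfl

theorem zAt_suppOn (q : ι) : SuppOn {q} (zAt q : Op ι) := by
  apply suppOn_tens
  intro i hi
  rw [Function.update_of_ne (by simpa using hi)]

theorem norm_zAt_le (q : ι) : ‖(zAt q : Op ι)‖ ≤ 1 :=
  (Circ.base _ (isTU_update q pz_mem)).norm_le

/-- the first `n` of `n + m` qubits -/
def inputs (n m : ℕ) : Finset (Fin (n + m)) := Finset.univ.filter fun j => (j : ℕ) < n

/-- the twirling unitaries -/
noncomputable def tw (n m : ℕ) (s : Fin (n + m) → Bool) : Fin (n + m) → Matrix Bool Bool ℂ :=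
  fun i => if (i : ℕ) < n then had * (if s i then pz else 1) else 1

theorem tw_isTU (n m : ℕ) (s : Fin (n + m) → Bool) : IsTU (tw n m s) := by
  intro i
  unfold tw
  split_ifs
  · exact mul_mem had_mem pz_mem
  · exact mul_mem had_mem (one_mem _)
  · exact one_mem _

/-- basis state `|1^n 0^m⟩` -/
def ones (n m : ℕ) : Fin (n + m) → Bool := fun j => decide ((j : ℕ) < n)

theorem wt_ones (n m : ℕ) : wt (inputs n m) (ones n m) = n := by
  unfold wt inputs ones
  rw [Finset.filter_filter]
  simp only [decide_eq_true_eq, and_self]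
  rw [Fin.card_filter_val_lt]
  simp

omit [Fintype ι] [DecidableEq ι] in
theorem wt_zero (T : Finset ι) : wt T (fun _ => false) = 0 := by
  simp [wt]

/-- bound for one matrix element -/
theorem entry_bound (n m k : ℕ) (μ : ℝ) (hloc : Loc (Fin (n + m)) k μ) (hn : μ ≤ n)
    (U : Op (Fin (n + m))) (hU : Circ k U) (out : Fin (n + m)) (s : Fin (n + m) → Bool) :
    ‖(tens (tw n m s) * (Uᴴ * zAt out * U) * (tens (tw n m s))ᴴ) (ones n m) (fun _ => false)‖
      ≤ Real.exp (-n / μ) := by
  have hV : Circ k (tens (tw n m s) * Uᴴ) := hU.star.tens_mul (tw_isTU n m s)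
  have h := hloc _ hV (inputs n m) {out} (zAt out) (zAt_suppOn out) (norm_zAt_le out) n hn
    (by simpa using hn)
  refine le_trans ?_ h
  refine le_trans (le_of_eq ?_) (norm_entry_le _ (ones n m) (fun _ => false))
  congr 1
  rw [Pge, Ez, Matrix.mul_diagonal, Matrix.diagonal_mul, wt_ones, wt_zero]
  simp only [Matrix.conjTranspose_mul, Matrix.conjTranspose_conjTranspose]
  simp [mul_assoc]

/-- factor of the twirled sum -/
noncomputable def gf (n m : ℕ) (i : Fin (n + m)) (u v : Bool) : ℂ :=
  if (i : ℕ) < n then (if u = v then (if u then -1 else 1) else 0)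
  else (if u = false ∧ v = false then 2 else 0)

theorem twirl_site (n m : ℕ) (i : Fin (n + m)) (u v : Bool) :
    ∑ c : Bool, (if (i : ℕ) < n then had * (if c then pz else 1) else 1) (ones n m i) u *
      star ((if (i : ℕ) < n then had * (if c then pz else 1) else (1 : Matrix Bool Bool ℂ))
        false v) = gf n m i u v := by
  have h2 := sqrt2_inv_sq
  by_cases hi : (i : ℕ) < n
  · simp only [hi, if_true, gf, ones, decide_true]
    cases u <;> cases v <;>
      simp [had, pz, Matrix.mul_apply, Matrix.diagonal_apply, h2] <;> norm_num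
  · simp only [hi, if_false, gf, ones, decide_false]
    cases u <;> cases v <;> simp <;> norm_num

theorem twirl_sum (n m : ℕ) (O : Op (Fin (n + m))) :
    ∑ s : Fin (n + m) → Bool,
      (tens (tw n m s) * O * (tens (tw n m s))ᴴ) (ones n m) (fun _ => false)
      = ∑ u, ∑ v, O u v * ∏ i, gf n m i (u i) (v i) := by
  have h1 : ∀ s : Fin (n + m) → Bool,
      (tens (tw n m s) * O * (tens (tw n m s))ᴴ) (ones n m) (fun _ => false)
      = ∑ u, ∑ v, O u v * ∏ i, (tw n m s i (ones n m i) (u i) * star (tw n m s i false (v i))) := by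
    intro s
    rw [Matrix.mul_apply, Finset.sum_comm]
    apply Finset.sum_congr rfl
    intro v _
    rw [Matrix.mul_apply, Finset.sum_mul]
    apply Finset.sum_congr rfl
    intro u _
    rw [Matrix.conjTranspose_apply, tens_apply, tens_apply, Finset.prod_mul_distrib, star_prod]
    ring
  simp_rw [h1]
  rw [Finset.sum_comm]
  apply Finset.sum_congr rfl
  intro u _
  rw [Finset.sum_comm]
  apply Finset.sum_congr rfl
  intro v _
  rw [← Finset.mul_sum]
  congr 1
  simp_rw [← twirl_site, Finset.prod_univ_sum, Fintype.piFinset_univ]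
  rfl

theorem prod_gf_ne (n m : ℕ) (u v : Fin (n + m) → Bool) (h : u ≠ v) :
    ∏ i, gf n m i (u i) (v i) = 0 := by
  obtain ⟨i, hi⟩ := Function.ne_iff.mp h
  apply Finset.prod_eq_zero (Finset.mem_univ i)
  unfold gf
  by_cases h1 : (i : ℕ) < n
  · rw [if_pos h1, if_neg hi]
  · rw [if_neg h1, if_neg]
    rintro ⟨h2, h3⟩
    exact hi (h2.trans h3.symm)

theorem initial_injective (n m : ℕ) :
    Function.Injective (initial : (Fin n → Bool) → Bits (n + m)) := by
  intro x y hxy
  funext j
  have := congrFun hxy (Fin.castAdd m j)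
  simpa [initial] using this

theorem parity_sign {n : ℕ} (x : Fin n → Bool) :
    (∏ i, (if x i then (-1 : ℂ) else 1)) = if parity x then -1 else 1 := by
  rw [Finset.prod_ite, Finset.prod_const_one, mul_one, Finset.prod_const]
  unfold parity
  by_cases h : Odd (Finset.univ.filter fun i => x i = true).card
  · rw [h.neg_one_pow]; simp [h]
  · rw [(Nat.not_odd_iff_even.mp h).neg_one_pow]; simp [h]

theorem prod_gf_initial (n m : ℕ) (x : Fin n → Bool) :
    ∏ i, gf n m i ((initial x : Bits (n + m)) i) ((initial x : Bits (n + m)) i)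
      = (if parity x then -1 else 1) * 2 ^ m := by
  rw [Fin.prod_univ_add, ← parity_sign]
  congr 1
  · apply Finset.prod_congr rfl
    intro i _
    simp [gf, initial]
  · simp [gf, initial]

theorem prod_gf_not_initial (n m : ℕ) (u : Fin (n + m) → Bool)
    (h : ∀ x : Fin n → Bool, initial x ≠ u) : ∏ i, gf n m i (u i) (u i) = 0 := by
  by_contra hne
  apply h fun j => u (Fin.castAdd m j)
  funext i
  have hi : gf n m i (u i) (u i) ≠ 0 := fun h0 => hne (Finset.prod_eq_zero (Finset.mem_univ i) h0)
  unfold initial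
  by_cases h1 : (i : ℕ) < n
  · rw [dif_pos h1]; rfl
  · rw [dif_neg h1]
    unfold gf at hi
    rw [if_neg h1] at hi
    by_contra h2
    apply hi
    rw [if_neg]
    rintro ⟨h3, -⟩
    exact h2 h3.symm

/-- the twirled sum is the sum over all inputs of signed diagonal entries -/
theorem twirl_sum' (n m : ℕ) (O : Op (Fin (n + m))) :
    ∑ s : Fin (n + m) → Bool,
      (tens (tw n m s) * O * (tens (tw n m s))ᴴ) (ones n m) (fun _ => false)
      = 2 ^ m * ∑ x : Fin n → Bool, (if parity x then -1 else 1) * O (initial x) (initial x) := by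
  rw [twirl_sum]
  have h1 : ∀ u : Fin (n + m) → Bool, ∑ v, O u v * ∏ i, gf n m i (u i) (v i)
      = O u u * ∏ i, gf n m i (u i) (u i) := by
    intro u
    apply Finset.sum_eq_single u
    · intro v _ hv
      rw [prod_gf_ne n m u v hv.symm, mul_zero]
    · intro h; exact absurd (Finset.mem_univ u) h
  simp_rw [h1]
  rw [← Finset.sum_subset (Finset.subset_univ
    (Finset.univ.image (initial : (Fin n → Bool) → Bits (n + m)))),
    Finset.sum_image (fun x _ y _ h => initial_injective n m h), Finset.mul_sum]
  · apply Finset.sum_congr rfl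
    intro x _
    rw [prod_gf_initial]
    ring
  · intro u _ hu
    rw [prod_gf_not_initial, mul_zero]
    intro x hx
    exact hu (Finset.mem_image.mpr ⟨x, Finset.mem_univ _, hx⟩)

/-- diagonal entries are output probabilities -/
theorem diag_entry {N n : ℕ} (C : Circuit N) (x : Fin n → Bool) :
    (C.unitaryᴴ * zAt C.out * C.unitary) (initial x) (initial x)
      = ((C.outProb x false - C.outProb x true : ℝ) : ℂ) := by
  rw [zAt_eq_diagonal, mul_assoc, Matrix.mul_apply]
  have : ∀ y : Bits N, (C.unitaryᴴ (initial x) y *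
      (Matrix.diagonal (fun x : Bits N => if x C.out then (-1 : ℂ) else 1) * C.unitary) y
        (initial x))
      = (((if y C.out = false then ‖C.unitary y (initial x)‖ ^ 2 else 0)
        - (if y C.out = true then ‖C.unitary y (initial x)‖ ^ 2 else 0) : ℝ) : ℂ) := by
    intro y
    rw [Matrix.diagonal_mul, Matrix.conjTranspose_apply]
    have h := Complex.conj_mul' (C.unitary y (initial x))
    cases hy : y C.out
    · simp only [Bool.false_eq_true, if_false, if_true, one_mul, sub_zero]
      rw [Complex.ofReal_pow, ← h]; rfl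
    · simp only [if_true, Bool.true_eq_false, if_false, neg_mul, one_mul, zero_sub, mul_neg]
      rw [Complex.ofReal_neg, Complex.ofReal_pow, ← h]; rfl
  rw [Finset.sum_congr rfl fun y _ => this y, ← Complex.ofReal_sum, Finset.sum_sub_distrib]
  unfold Circuit.outProb
  rw [Finset.sum_filter, Finset.sum_filter]

/-- the parity correlation is bounded by `exp(-n/μ)` -/
theorem correlation_le (n m k : ℕ) (μ : ℝ) (hloc : Loc (Fin (n + m)) k μ) (hn : μ ≤ n)
    (C : Circuit (n + m)) (hC : Circ k C.unitary) :
    |C.parityCorrelation n| ≤ Real.exp (-n / μ) := by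
  set S : ℂ := ∑ x : Fin n → Bool, (if parity x then -1 else 1) *
    (C.unitaryᴴ * zAt C.out * C.unitary) (initial x) (initial x) with hS
  have h1 : ‖(2 : ℂ) ^ m * S‖ ≤ 2 ^ (n + m) * Real.exp (-n / μ) := by
    rw [hS, ← twirl_sum']
    refine (norm_sum_le _ _).trans ?_
    refine (Finset.sum_le_sum fun s _ => entry_bound n m k μ hloc hn C.unitary hC C.out s).trans ?_
    rw [Finset.sum_const, Finset.card_univ, Fintype.card_fun, Fintype.card_bool, Fintype.card_fin,
      nsmul_eq_mul]
    push_cast
    exact le_rfl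
  have h2 : S = ((∑ x : Fin n → Bool,
      (C.outProb x (parity x) - C.outProb x (!parity x)) : ℝ) : ℂ) := by
    rw [hS, Complex.ofReal_sum]
    apply Finset.sum_congr rfl
    intro x _
    rw [diag_entry]
    cases parity x
    · simp
    · simp
  have h3 : C.parityCorrelation n = (∑ x : Fin n → Bool,
      (C.outProb x (parity x) - C.outProb x (!parity x))) / 2 ^ n := rfl
  rw [norm_mul, norm_pow, Complex.norm_ofNat, h2, Complex.norm_real, pow_add] at h1
  rw [h3, abs_div, abs_of_pos (by positivity : (0 : ℝ) < 2 ^ n), div_le_iff₀ (by positivity)]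
  rw [Real.norm_eq_abs] at h1
  have h4 : (0 : ℝ) < 2 ^ m := by positivity
  have h5 : (2 : ℝ) ^ m * |∑ x : Fin n → Bool,
      (C.outProb x (parity x) - C.outProb x (!parity x))| ≤
      2 ^ m * (Real.exp (-n / μ) * 2 ^ n) := by
    refine h1.trans (le_of_eq ?_)
    ring
  exact le_of_mul_le_mul_left h5 h4

end Vale.Agent.P368

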