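import Vale.Agent.P368.Asym
import Vale.Agent.P368.Circuits

/-! Reduction of QAC circuits to the normal form `Circ`. -/

open Matrix
open scoped Matrix.Norms.L2Operator

namespace Vale.Agent.P368

variable {ι : Type*} [Fintype ι] [DecidableEq ι]

/-- the Hadamard matrix -/
noncomputable def had : Matrix Bool Bool ℂ :=
  Matrix.of fun a b => (if a && b then (-1 : ℂ) else 1) * (((√2)⁻¹ : ℝ) : ℂ)

theorem had_star : hadᴴ = had := by
  ext a b
  cases a <;> cases b <;> simp [had, Matrix.conjTranspose_apply]

theorem sqrt2_inv_sq : (((√2 : ℝ) : ℂ))⁻¹ * (((√2 : ℝ) : ℂ))⁻¹ = 1 / 2 := by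
  rw [← mul_inv, ← Complex.ofReal_mul, Real.mul_self_sqrt (by norm_num)]
  norm_num

theorem had_sq : had * had = 1 := by
  have h2 := sqrt2_inv_sq
  ext a b
  cases a <;> cases b <;> simp [had, Matrix.mul_apply, h2] <;> norm_num

theorem had_mem : had ∈ Matrix.unitaryGroup Bool ℂ := by
  rw [Matrix.mem_unitaryGroup_iff]
  change had * hadᴴ = 1
  rw [had_star, had_sq]

omit [DecidableEq ι] in
theorem tens_apply (u : ι → Matrix Bool Bool ℂ) (x y : ι → Bool) :
    tens u x y = ∏ i, u i (x i) (y i) := rfl

/-- `tens` of a family concentrated at one site -/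
theorem tens_update (q : ι) (m : Matrix Bool Bool ℂ) (x y : ι → Bool) :
    tens (Function.update (fun _ => 1) q m) x y
      = if ∀ j, j ≠ q → x j = y j then m (x q) (y q) else 0 := by
  rw [tens_apply]
  split_ifs with h
  · rw [Fintype.prod_eq_single q]
    · simp
    · intro i hi
      simp [Function.update_of_ne hi, h i hi]
  · push Not at h
    obtain ⟨j, hj, hxy⟩ := h
    apply Finset.prod_eq_zero (Finset.mem_univ j)
    simp [Function.update_of_ne hj, hxy]

theorem commute_tens_diagonal (h : ι → Matrix Bool Bool ℂ) (g : (ι → Bool) → ℂ) (U : Finset ι)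
    (hh : ∀ i ∈ U, h i = 1) (hg : ∀ x y : ι → Bool, (∀ i ∈ U, x i = y i) → g x = g y) :
    Commute (tens h) (Matrix.diagonal g) := by
  unfold Commute SemiconjBy
  ext x y
  rw [Matrix.mul_diagonal, Matrix.diagonal_mul]
  by_cases hxy : ∀ i ∈ U, x i = y i
  · rw [hg x y hxy, mul_comm]
  · push Not at hxy
    obtain ⟨i, hi, hne⟩ := hxy
    have : tens h x y = 0 := by
      rw [tens_apply]
      apply Finset.prod_eq_zero (Finset.mem_univ i)
      simp [hh i hi, hne]
    simp [this]

/-- the toffoli gate in terms of a diagonal gate -/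
theorem toffoli_matrix {N : ℕ} (c : Finset (Fin N)) (t : Fin N) (hc : c.Nonempty) (ht : t ∉ c) :
    (Gate.toffoli c t hc ht).matrix =
      tens (Function.update (fun _ => 1) t had) * layerCZ {insert t c} *
        tens (Function.update (fun _ => 1) t had) := by
  have hlay : (layerCZ {insert t c} : Op (Fin N)) = 1 - (2 : ℂ) • nAll (insert t c) := by
    unfold layerCZ nAll
    ext x y
    by_cases hxy : x = y
    · subst hxy
      by_cases h : ∀ i ∈ insert t c, x i = true
      · simp only [Finset.prod_singleton, Matrix.diagonal_apply_eq, Matrix.sub_apply,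
          Matrix.one_apply_eq, Matrix.smul_apply, if_pos h]
        norm_num
      · simp only [Finset.prod_singleton, Matrix.diagonal_apply_eq, Matrix.sub_apply,
          Matrix.one_apply_eq, Matrix.smul_apply, if_neg h]
        norm_num
    · simp [Matrix.diagonal_apply_ne _ hxy, Matrix.one_apply_ne hxy]
  have hsq : tens (Function.update (fun _ => 1) t had) * tens (Function.update (fun _ => 1) t had)
      = (1 : Op (Fin N)) := by
    rw [tens_mul, ← tens_one]
    congr 1
    funext i
    by_cases hi : i = t
    · subst hi; simp [had_sq]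
    · simp [Function.update_of_ne hi]
  rw [hlay, mul_sub, sub_mul, mul_one, hsq, nAll_eq_tens, Matrix.mul_smul, Matrix.smul_mul,
    tens_mul, tens_mul]
  set v : Fin N → Matrix Bool Bool ℂ := fun i =>
    Function.update (fun _ => (1 : Matrix Bool Bool ℂ)) t had i *
      (if i ∈ insert t c then Matrix.diagonal (fun b : Bool => if b then (1:ℂ) else 0) else 1) *
        Function.update (fun _ => (1 : Matrix Bool Bool ℂ)) t had i with hv
  have hvt : ∀ a b : Bool, v t a b = if a = b then 1 / 2 else -1 / 2 := by
    have h2 := sqrt2_inv_sq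
    intro a b
    cases a <;> cases b <;>
      simp [hv, had, Matrix.mul_apply, Matrix.diagonal_apply, h2] <;> norm_num
  have hvi : ∀ i, i ≠ t → v i = if i ∈ c then
      Matrix.diagonal (fun b : Bool => if b then (1:ℂ) else 0) else 1 := by
    intro i hi
    simp [hv, Function.update_of_ne hi, Finset.mem_insert, hi]
  have hent : ∀ x y, tens v x y = if (∀ j, j ≠ t → x j = y j) ∧ (∀ i ∈ c, y i = true) then
      (if x t = y t then 1 / 2 else -1 / 2) else (0 : ℂ) := by
    intro x y
    rw [tens_apply]
    split_ifs with h1 h2
    · rw [Fintype.prod_eq_single t, hvt, if_pos h2]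
      intro i hi
      rw [hvi i hi, h1.1 i hi]
      split_ifs with hic
      · simp [h1.2 i hic]
      · simp
    · rw [Fintype.prod_eq_single t, hvt, if_neg h2]
      intro i hi
      rw [hvi i hi, h1.1 i hi]
      split_ifs with hic
      · simp [h1.2 i hic]
      · simp
    · rw [not_and_or] at h1
      rcases h1 with h1 | h1
      · push Not at h1
        obtain ⟨j, hj, hne⟩ := h1
        apply Finset.prod_eq_zero (Finset.mem_univ j)
        rw [hvi j hj]
        split_ifs
        · simp [hne]
        · simp [hne]
      · push Not at h1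
        obtain ⟨j, hj, hne⟩ := h1
        have hjt : j ≠ t := fun h => ht (h ▸ hj)
        have hyj : y j = false := by simpa using hne
        apply Finset.prod_eq_zero (Finset.mem_univ j)
        rw [hvi j hjt, if_pos hj]
        by_cases hxy : x j = y j
        · simp [hxy, hyj]
        · simp [hxy]
  ext x y
  rw [Matrix.sub_apply, Matrix.smul_apply, hent, Matrix.one_apply]
  simp only [Gate.matrix, Matrix.of_apply, smul_eq_mul]
  by_cases hoff : ∀ j, j ≠ t → x j = y j
  · have hxu : ∀ b, x = Function.update y t b ↔ x t = b := by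
      intro b
      constructor
      · intro h; rw [h]; simp
      · intro h
        funext j
        by_cases hj : j = t
        · subst hj; simp [h]
        · rw [Function.update_of_ne hj, hoff j hj]
    have hxy : x = y ↔ x t = y t := by
      conv_lhs => rw [← Function.update_eq_self t y]
      exact hxu _
    have hoff' : (∀ j, j ≠ t → x j = y j) = True := eq_true hoff
    simp only [hxu, hxy, hoff', true_and]
    by_cases hall : ∀ i ∈ c, y i = true
    · have hall' : (∀ i ∈ c, y i = true) = True := eq_true hall
      simp only [hall', decide_true, if_true]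
      cases x t <;> cases y t <;> norm_num
    · have hall' : (∀ i ∈ c, y i = true) = False := eq_false hall
      simp only [hall', decide_false, if_false]
      cases x t <;> cases y t <;> norm_num
  · have h1 : ¬ x = y := fun h => hoff fun j _ => by rw [h]
    have h2 : ∀ b, ¬ x = Function.update y t b := fun b h => hoff fun j hj => by
      rw [h, Function.update_of_ne hj]
    simp only [h1, h2, hoff, false_and, if_false]
    norm_num

theorem one_matrix {N : ℕ} (q : Fin N) (u : Matrix Bool Bool ℂ)
    (hu : u ∈ Matrix.unitaryGroup Bool ℂ) :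
    (Gate.one q u hu).matrix = tens (Function.update (fun _ => 1) q u) := by
  ext x y
  rw [tens_update]
  simp only [Gate.matrix, Matrix.of_apply]
  split_ifs <;> rfl

/-- one-qubit operators commute with controlled gates elsewhere -/
theorem commute_tens_layerCZ (h : ι → Matrix Bool Bool ℂ) (F : Finset (Finset ι))
    (hh : ∀ S ∈ F, ∀ i ∈ S, h i = 1) : Commute (tens h) (layerCZ F : Op ι) := by
  apply commute_tens_diagonal h _ (F.sup id)
  · intro i hi
    rw [Finset.mem_sup] at hi
    obtain ⟨S, hS, hi⟩ := hi
    exact hh S hS i hi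
  · intro x y hxy
    apply Finset.prod_congr rfl
    intro S hS
    have hxy' : ∀ i ∈ S, x i = y i := fun i hi =>
      hxy i (Finset.mem_sup.mpr ⟨S, hS, hi⟩)
    have : (∀ i ∈ S, x i = true) ↔ (∀ i ∈ S, y i = true) := by
      constructor
      · intro hx i hi; rw [← hxy' i hi]; exact hx i hi
      · intro hx i hi; rw [hxy' i hi]; exact hx i hi
    simp only [this]

omit [Fintype ι] [DecidableEq ι] in
theorem isTU_one : IsTU (fun _ : ι => (1 : Matrix Bool Bool ℂ)) := fun _ => one_mem _

omit [Fintype ι] in
theorem isTU_update (q : ι) {u : Matrix Bool Bool ℂ} (hu : u ∈ Matrix.unitaryGroup Bool ℂ) :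
    IsTU (Function.update (fun _ : ι => (1 : Matrix Bool Bool ℂ)) q u) := by
  intro i
  by_cases hi : i = q
  · subst hi; simpa using hu
  · rw [Function.update_of_ne hi]; exact one_mem _

theorem layerCZ_empty : (layerCZ (∅ : Finset (Finset ι)) : Op ι) = 1 := by
  simp [layerCZ]

theorem layerCZ_insert (S : Finset ι) (F : Finset (Finset ι)) (h : S ∉ F) :
    (layerCZ (insert S F) : Op ι) = layerCZ {S} * layerCZ F := by
  simp only [layerCZ, Matrix.diagonal_mul_diagonal, Finset.prod_insert h, Finset.prod_singleton]

/-- Every layer is `tens w * layerCZ F * tens w'`. -/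
theorem layer_normal {N : ℕ} (gs : List (Gate N))
    (h : gs.Pairwise fun g g' => Disjoint g.support g'.support) :
    ∃ w w' : Fin N → Matrix Bool Bool ℂ, ∃ F : Finset (Finset (Fin N)), IsTU w ∧ IsTU w' ∧
      (F : Set (Finset (Fin N))).PairwiseDisjoint id ∧
      (∀ S ∈ F, ∃ g ∈ gs, S = g.support) ∧
      (∀ i, (∀ g ∈ gs, i ∉ g.support) → w i = 1 ∧ w' i = 1) ∧
      (gs.any Gate.isMulti = false → F = ∅) ∧
      (gs.map Gate.matrix).prod = tens w * layerCZ F * tens w' := by
  induction gs with
  | nil =>
    refine ⟨fun _ => 1, fun _ => 1, ∅, isTU_one, isTU_one, by simp, by simp, by simp, by simp, ?_⟩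
    simp [tens_one, layerCZ_empty]
  | cons g gs ih =>
    rw [List.pairwise_cons] at h
    obtain ⟨w, w', F, hw, hw', hF, hFs, hwi, hm, hprod⟩ := ih h.2
    have hdis : ∀ i ∈ g.support, ∀ g' ∈ gs, i ∉ g'.support := fun i hi g' hg' =>
      Finset.disjoint_left.mp (h.1 g' hg') hi
    cases g with
    | one q u hu =>
      refine ⟨fun i => Function.update (fun _ => (1 : Matrix Bool Bool ℂ)) q u i * w i, w', F,
        (isTU_update q hu).mul hw, hw', hF, ?_, ?_, ?_, ?_⟩
      · intro S hS
        obtain ⟨g, hg, rfl⟩ := hFs S hS
        exact ⟨g, List.mem_cons_of_mem _ hg, rfl⟩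
      · intro i hi
        have h1 := hi _ List.mem_cons_self
        have h2 := hwi i fun g hg => hi g (List.mem_cons_of_mem _ hg)
        have hiq : i ≠ q := by simpa [Gate.support] using h1
        exact ⟨by simp [Function.update_of_ne hiq, h2.1], h2.2⟩
      · intro hany
        apply hm
        simpa [Gate.isMulti] using hany
      · rw [List.map_cons, List.prod_cons, hprod, one_matrix, ← mul_assoc, ← mul_assoc, tens_mul]
    | toffoli c t hc ht =>
      set hh : Fin N → Matrix Bool Bool ℂ :=
        Function.update (fun _ => (1 : Matrix Bool Bool ℂ)) t had with hhdef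
      have hhTU : IsTU hh := isTU_update t had_mem
      have hts : t ∈ (Gate.toffoli c t hc ht).support := Finset.mem_insert_self _ _
      have hwS : ∀ i ∈ insert t c, w i = 1 := fun i hi => (hwi i (hdis i hi)).1
      have hhF : ∀ S ∈ F, ∀ i ∈ S, hh i = 1 := by
        intro S hS i hi
        obtain ⟨g, hg, rfl⟩ := hFs S hS
        have : i ≠ t := fun hit => hdis t hts g hg (hit ▸ hi)
        rw [hhdef, Function.update_of_ne this]
      have hSF : insert t c ∉ F := by
        intro hS
        obtain ⟨g, hg, hgs⟩ := hFs _ hS
        exact hdis t hts g hg (hgs ▸ Finset.mem_insert_self _ _)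
      have hcomm1 : Commute (tens w) (layerCZ {insert t c} : Op (Fin N)) :=
        commute_tens_layerCZ w _ fun S hS i hi => hwS i (Finset.mem_singleton.mp hS ▸ hi)
      have hcomm2 : Commute (tens hh) (layerCZ F : Op (Fin N)) :=
        commute_tens_layerCZ hh F hhF
      have hcomm3 : Commute (tens hh) (tens w) := by
        unfold Commute SemiconjBy
        rw [tens_mul, tens_mul]
        congr 1
        funext i
        by_cases hi : i = t
        · rw [hi, hwS t (Finset.mem_insert_self _ _), one_mul, mul_one]
        · rw [hhdef, Function.update_of_ne hi, one_mul, mul_one]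
      refine ⟨fun i => hh i * w i, fun i => hh i * w' i, insert (insert t c) F,
        hhTU.mul hw, hhTU.mul hw', ?_, ?_, ?_, ?_, ?_⟩
      · rw [Finset.coe_insert]
        apply Set.PairwiseDisjoint.insert hF
        intro S hS _
        obtain ⟨g, hg, rfl⟩ := hFs S hS
        exact h.1 g hg
      · intro S hS
        rw [Finset.mem_insert] at hS
        rcases hS with rfl | hS
        · exact ⟨_, List.mem_cons_self, rfl⟩
        · obtain ⟨g, hg, rfl⟩ := hFs S hS
          exact ⟨g, List.mem_cons_of_mem _ hg, rfl⟩
      · intro i hi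
        have h1 := hi _ List.mem_cons_self
        have h2 := hwi i fun g hg => hi g (List.mem_cons_of_mem _ hg)
        have hiq : i ≠ t := fun hit => h1 (hit ▸ hts)
        have hhi : hh i = 1 := by rw [hhdef, Function.update_of_ne hiq]
        exact ⟨by simp [hhi, h2.1], by simp [hhi, h2.2]⟩
      · intro hany
        simp [Gate.isMulti] at hany
      · rw [List.map_cons, List.prod_cons, hprod, toffoli_matrix, layerCZ_insert _ _ hSF,
          ← tens_mul, ← tens_mul]
        calc tens hh * layerCZ {insert t c} * tens hh * (tens w * layerCZ F * tens w')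
            = tens hh * layerCZ {insert t c} * (tens hh * tens w) * layerCZ F * tens w' := by
              simp only [mul_assoc]
          _ = tens hh * (layerCZ {insert t c} * tens w) * (tens hh * layerCZ F) * tens w' := by
              rw [hcomm3.eq]; simp only [mul_assoc]
          _ = tens hh * (tens w * layerCZ {insert t c}) * (layerCZ F * tens hh) * tens w' := by
              rw [hcomm1.eq, hcomm2.eq]
          _ = _ := by simp only [mul_assoc]

theorem Circ.succ {k : ℕ} {V : Op ι} (hV : Circ k V) : Circ (k + 1) V := by
  have := Circ.step k V hV ∅ (by simp) (fun _ => 1) isTU_one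
  rwa [layerCZ_empty, tens_one, mul_one, mul_one] at this

theorem Circ.mono {k l : ℕ} {V : Op ι} (hV : Circ k V) (h : k ≤ l) : Circ l V := by
  induction h with
  | refl => exact hV
  | step _ ih => exact ih.succ

theorem layersMatrix_circ {N : ℕ} (Ls : List (Layer N)) :
    Circ (Ls.countP Layer.isEntangling) (layersMatrix Ls) := by
  induction Ls with
  | nil =>
    have := Circ.base (fun _ : Fin N => (1 : Matrix Bool Bool ℂ)) isTU_one
    rw [tens_one] at this
    simpa [layersMatrix] using this
  | cons L Ls ih =>
    obtain ⟨w, w', F, hw, hw', hF, -, -, hm, hprod⟩ := layer_normal L.gates L.disjoint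
    have hL : L.matrix = tens w * layerCZ F * tens w' := hprod
    rw [layersMatrix, hL, ← mul_assoc, ← mul_assoc]
    by_cases he : L.isEntangling = true
    · rw [List.countP_cons_of_pos he]
      exact Circ.step _ _ (ih.mul_tens hw) F hF w' hw'
    · rw [List.countP_cons_of_neg he]
      have hF0 : F = ∅ := hm (by simpa [Layer.isEntangling] using he)
      rw [hF0, layerCZ_empty, mul_one]
      exact (ih.mul_tens hw).mul_tens hw'

end Vale.Agent.P368

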