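import Vale.Agent.P368.Base

/-! P368, piece T: tensor algebra, normal-form circuits, operators supported on a set of qubits. -/

open Matrix
open scoped Matrix.Norms.L2Operator

set_option linter.unusedSectionVars false

namespace Vale.Agent.P368

variable {ι : Type*} [Fintype ι] [DecidableEq ι]

/-! ### products of one-qubit operators -/

theorem tens_mul (u v : ι → Matrix Bool Bool ℂ) : tens u * tens v = tens fun i => u i * v i := by
  ext x z
  simp only [tens, Matrix.mul_apply, Matrix.of_apply, ← Finset.prod_mul_distrib]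
  rw [Finset.prod_univ_sum, Fintype.piFinset_univ]

theorem tens_one : tens (fun _ : ι => (1 : Matrix Bool Bool ℂ)) = 1 := by
  ext x z
  simp only [tens, Matrix.of_apply, Matrix.one_apply]
  by_cases h : x = z
  · subst h; simp
  · rw [if_neg h]
    obtain ⟨i, hi⟩ := Function.ne_iff.1 h
    exact Finset.prod_eq_zero (Finset.mem_univ i) (if_neg hi)

theorem tens_star (u : ι → Matrix Bool Bool ℂ) : (tens u)ᴴ = tens fun i => (u i)ᴴ := by
  ext x z
  simp [tens, Matrix.conjTranspose_apply, star_prod]

/-- bit flip on the set `W` -/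
def flipV (W : Finset ι) : ι → Matrix Bool Bool ℂ :=
  fun i => if i ∈ W then Matrix.of (fun a b : Bool => if a = !b then (1 : ℂ) else 0) else 1

theorem flipM_star : (Matrix.of (fun a b : Bool => if a = !b then (1 : ℂ) else 0))ᴴ
    = Matrix.of (fun a b : Bool => if a = !b then (1 : ℂ) else 0) := by
  ext a b
  cases a <;> cases b <;> simp [Matrix.conjTranspose_apply]

theorem flipM_sq : Matrix.of (fun a b : Bool => if a = !b then (1 : ℂ) else 0)
    * Matrix.of (fun a b : Bool => if a = !b then (1 : ℂ) else 0) = 1 := by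
  ext a b
  cases a <;> cases b <;> simp [Matrix.mul_apply]

theorem flipV_star_apply (W : Finset ι) (i : ι) : (flipV W i)ᴴ = flipV W i := by
  unfold flipV
  by_cases h : i ∈ W
  · rw [if_pos h]; exact flipM_star
  · rw [if_neg h, Matrix.conjTranspose_one]

theorem flipV_sq_apply (W : Finset ι) (i : ι) : flipV W i * flipV W i = 1 := by
  unfold flipV
  by_cases h : i ∈ W
  · rw [if_pos h]; exact flipM_sq
  · rw [if_neg h, mul_one]

theorem flipV_isTU (W : Finset ι) : IsTU (flipV W) := by
  intro i
  rw [Matrix.mem_unitaryGroup_iff, Matrix.star_eq_conjTranspose, flipV_star_apply, flipV_sq_apply]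

theorem flipV_star (W : Finset ι) : (tens (flipV W))ᴴ = tens (flipV W) := by
  rw [tens_star]
  congr 1
  funext i
  exact flipV_star_apply W i

theorem flipV_sq (W : Finset ι) : tens (flipV W) * tens (flipV W) = 1 := by
  rw [tens_mul, ← tens_one]
  congr 1
  funext i
  exact flipV_sq_apply W i

/-- the entries of the flip operator -/
theorem tens_flipV_apply (W : Finset ι) (x z : ι → Bool) :
    tens (flipV W) x z = if x = (fun i => if i ∈ W then !(z i) else z i) then 1 else 0 := by
  simp only [tens, Matrix.of_apply]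
  by_cases h : x = fun i => if i ∈ W then !(z i) else z i
  · rw [if_pos h, Finset.prod_eq_one]
    intro i _
    have hi := congrFun h i
    by_cases hW : i ∈ W
    · rw [if_pos hW] at hi
      rw [flipV, if_pos hW, Matrix.of_apply, if_pos hi]
    · rw [if_neg hW] at hi
      rw [flipV, if_neg hW, hi, Matrix.one_apply_eq]
  · rw [if_neg h]
    obtain ⟨i, hi⟩ := Function.ne_iff.1 h
    refine Finset.prod_eq_zero (Finset.mem_univ i) ?_
    by_cases hW : i ∈ W
    · rw [if_pos hW] at hi
      rw [flipV, if_pos hW, Matrix.of_apply, if_neg hi]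
    · rw [if_neg hW] at hi
      rw [flipV, if_neg hW, Matrix.one_apply_ne hi]

theorem flip_flip (W : Finset ι) (z : ι → Bool) :
    (fun i => if i ∈ W then !(if i ∈ W then !(z i) else z i)
      else (if i ∈ W then !(z i) else z i)) = z := by
  funext i
  by_cases hW : i ∈ W <;> simp [hW]

/-- conjugation of a diagonal operator by a flip -/
theorem flipV_diag (W : Finset ι) (f : (ι → Bool) → ℂ) :
    tens (flipV W) * Matrix.diagonal f * tens (flipV W)
      = Matrix.diagonal fun x => f (fun i => if i ∈ W then !(x i) else x i) := by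
  ext x z
  rw [Matrix.mul_apply]
  simp only [Matrix.mul_diagonal, tens_flipV_apply]
  rw [Finset.sum_eq_single (fun i => if i ∈ W then !(z i) else z i)]
  · rw [flip_flip W z]
    by_cases h : x = z
    · subst h
      simp [Matrix.diagonal_apply_eq]
    · rw [Matrix.diagonal_apply_ne _ h, if_neg h]
      simp
  · intro w _ hw
    rw [if_neg hw, mul_zero]
  · intro h
    exact absurd (Finset.mem_univ _) h

theorem nAll_eq_tens (S : Finset ι) : (nAll S : Op ι) =
    tens fun i => if i ∈ S then Matrix.diagonal (fun b : Bool => if b then (1:ℂ) else 0) else 1 := by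
  ext x z
  simp only [nAll, tens, Matrix.of_apply]
  by_cases h : x = z
  · subst h
    rw [Matrix.diagonal_apply_eq]
    by_cases hS : ∀ i ∈ S, x i = true
    · rw [if_pos hS, Finset.prod_eq_one]
      intro i _
      by_cases hi : i ∈ S
      · simp [hi, hS i hi]
      · simp [hi]
    · rw [if_neg hS]
      push Not at hS
      obtain ⟨i, hi, hx⟩ := hS
      refine (Finset.prod_eq_zero (Finset.mem_univ i) ?_).symm
      simp [hi, hx]
  · rw [Matrix.diagonal_apply_ne _ h]
    obtain ⟨i, hi⟩ := Function.ne_iff.1 h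
    refine (Finset.prod_eq_zero (Finset.mem_univ i) ?_).symm
    by_cases hS : i ∈ S
    · simp [hS, Matrix.diagonal_apply_ne _ hi]
    · simp [hS, Matrix.one_apply_ne hi]

theorem wt_eq_zero_iff (T : Finset ι) (x : ι → Bool) : wt T x = 0 ↔ ∀ i ∈ T, x i = false := by
  unfold wt
  rw [Finset.card_eq_zero, Finset.filter_eq_empty_iff]
  simp

theorem Ez_eq_tens (S : Finset ι) : (Ez S : Op ι) =
    tens fun i => if i ∈ S then Matrix.diagonal (fun b : Bool => if b then (0:ℂ) else 1) else 1 := by
  ext x z
  simp only [Ez, tens, Matrix.of_apply]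
  by_cases h : x = z
  · subst h
    rw [Matrix.diagonal_apply_eq]
    by_cases hS : wt S x = 0
    · rw [if_pos hS, Finset.prod_eq_one]
      rw [wt_eq_zero_iff] at hS
      intro i _
      by_cases hi : i ∈ S
      · simp [hi, hS i hi]
      · simp [hi]
    · rw [if_neg hS]
      rw [wt_eq_zero_iff] at hS
      push Not at hS
      obtain ⟨i, hi, hx⟩ := hS
      refine (Finset.prod_eq_zero (Finset.mem_univ i) ?_).symm
      simp at hx
      simp [hi, hx]
  · rw [Matrix.diagonal_apply_ne _ h]
    obtain ⟨i, hi⟩ := Function.ne_iff.1 h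
    refine (Finset.prod_eq_zero (Finset.mem_univ i) ?_).symm
    by_cases hS : i ∈ S
    · simp [hS, Matrix.diagonal_apply_ne _ hi]
    · simp [hS, Matrix.one_apply_ne hi]

theorem flip_Ez_flip (S : Finset ι) : tens (flipV S) * Ez S * tens (flipV S) = nAll S := by
  unfold Ez nAll
  rw [flipV_diag]
  congr 1
  funext x
  have h : (wt S (fun i => if i ∈ S then !(x i) else x i) = 0) ↔ ∀ i ∈ S, x i = true := by
    rw [wt_eq_zero_iff]
    constructor
    · intro h i hi
      have := h i hi
      rw [if_pos hi] at this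
      simpa using this
    · intro h i hi
      rw [if_pos hi, h i hi]
      rfl
  by_cases h' : ∀ i ∈ S, x i = true
  · rw [if_pos h', if_pos (h.2 h')]
  · rw [if_neg h', if_neg fun hc => h' (h.1 hc)]

/-! ### tensor products of unitaries -/

theorem IsTU.one : IsTU (fun _ : ι => (1 : Matrix Bool Bool ℂ)) := fun _ => one_mem _

theorem IsTU.mul {u v : ι → Matrix Bool Bool ℂ} (hu : IsTU u) (hv : IsTU v) :
    IsTU fun i => u i * v i := fun i => mul_mem (hu i) (hv i)

theorem IsTU.star {u : ι → Matrix Bool Bool ℂ} (hu : IsTU u) : IsTU fun i => (u i)ᴴ :=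
  fun i => Unitary.star_mem (hu i)

theorem IsTU.conj_mul {w : ι → Matrix Bool Bool ℂ} (hw : IsTU w) : (tens w)ᴴ * tens w = 1 := by
  rw [tens_star, tens_mul, ← tens_one]
  congr 1
  funext i
  exact (Matrix.mem_unitaryGroup_iff'.1 (hw i))

theorem IsTU.mul_conj {w : ι → Matrix Bool Bool ℂ} (hw : IsTU w) : tens w * (tens w)ᴴ = 1 := by
  rw [tens_star, tens_mul, ← tens_one]
  congr 1
  funext i
  exact (Matrix.mem_unitaryGroup_iff.1 (hw i))

theorem layerCZ_sign (F : Finset (Finset ι)) (x : ι → Bool) :
    (∏ S ∈ F, (if ∀ i ∈ S, x i = true then (-1 : ℂ) else 1)) = 1 ∨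
      (∏ S ∈ F, (if ∀ i ∈ S, x i = true then (-1 : ℂ) else 1)) = -1 := by
  classical
  induction F using Finset.induction_on with
  | empty => left; simp
  | insert S F hS ih =>
    rw [Finset.prod_insert hS]
    by_cases h : ∀ i ∈ S, x i = true
    · rw [if_pos h]
      rcases ih with ih | ih <;> rw [ih] <;> simp
    · rw [if_neg h]
      rcases ih with ih | ih <;> rw [ih] <;> simp

theorem layerCZ_star (F : Finset (Finset ι)) : (layerCZ F : Op ι)ᴴ = layerCZ F := by
  unfold layerCZ
  rw [Matrix.diagonal_conjTranspose]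
  congr 1
  funext x
  show star (∏ S ∈ F, (if ∀ i ∈ S, x i = true then (-1 : ℂ) else 1)) = _
  rcases layerCZ_sign F x with h | h <;> rw [h] <;> simp

theorem layerCZ_sq (F : Finset (Finset ι)) : (layerCZ F : Op ι) * layerCZ F = 1 := by
  unfold layerCZ
  rw [Matrix.diagonal_mul_diagonal, ← Matrix.diagonal_one]
  congr 1
  funext x
  rcases layerCZ_sign F x with h | h <;> rw [h] <;> simp

/-! ### circuits in normal form -/

theorem Circ.unitary {k : ℕ} {V : Op ι} (hV : Circ k V) : Vᴴ * V = 1 ∧ V * Vᴴ = 1 := by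
  induction hV with
  | base w hw => exact ⟨hw.conj_mul, hw.mul_conj⟩
  | step k V hV F hF w hw ih =>
    obtain ⟨h1, h2⟩ := ih
    rw [Matrix.conjTranspose_mul, Matrix.conjTranspose_mul, layerCZ_star]
    constructor
    · calc (tens w)ᴴ * (layerCZ F * Vᴴ) * (V * layerCZ F * tens w)
          = (tens w)ᴴ * (layerCZ F * (Vᴴ * V) * layerCZ F) * tens w := by
            simp only [mul_assoc]
        _ = 1 := by rw [h1, mul_one, layerCZ_sq, mul_one, hw.conj_mul]
    · calc V * layerCZ F * tens w * ((tens w)ᴴ * (layerCZ F * Vᴴ))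
          = V * (layerCZ F * (tens w * (tens w)ᴴ) * layerCZ F) * Vᴴ := by
            simp only [mul_assoc]
        _ = 1 := by rw [hw.mul_conj, mul_one, layerCZ_sq, mul_one, h2]

theorem norm_diagonal_le_one {f : (ι → Bool) → ℂ} (hf : ∀ x, ‖f x‖ ≤ 1) :
    ‖(Matrix.diagonal f : Op ι)‖ ≤ 1 := by
  rw [Matrix.l2_opNorm_diagonal]
  exact (pi_norm_le_iff_of_nonneg zero_le_one).2 hf

theorem norm_op_one : ‖(1 : Op ι)‖ ≤ 1 := by
  rw [← Matrix.diagonal_one]
  exact norm_diagonal_le_one fun _ => by simp

theorem norm_le_one_of_unitary {V : Op ι} (h : Vᴴ * V = 1) : ‖V‖ ≤ 1 := by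
  have h1 : ‖V‖ * ‖V‖ = ‖Vᴴ * V‖ := (Matrix.l2_opNorm_conjTranspose_mul_self V).symm
  rw [h] at h1
  have h2 : ‖V‖ * ‖V‖ ≤ 1 := by
    rw [h1]
    exact norm_op_one
  nlinarith [norm_nonneg V]

theorem Circ.norm_le {k : ℕ} {V : Op ι} (hV : Circ k V) : ‖V‖ ≤ 1 :=
  norm_le_one_of_unitary hV.unitary.1

theorem Circ.tens_mul {k : ℕ} {V : Op ι} (hV : Circ k V) {w : ι → Matrix Bool Bool ℂ}
    (hw : IsTU w) : Circ k (tens w * V) := by
  induction hV with
  | base w' hw' =>
    rw [Vale.Agent.P368.tens_mul]
    exact Circ.base _ (hw.mul hw')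
  | step k V hV F hF w' hw' ih =>
    rw [← mul_assoc, ← mul_assoc]
    exact Circ.step k _ ih F hF w' hw'

theorem Circ.mul_tens {k : ℕ} {V : Op ι} (hV : Circ k V) {w : ι → Matrix Bool Bool ℂ}
    (hw : IsTU w) : Circ k (V * tens w) := by
  cases hV with
  | base w' hw' =>
    rw [Vale.Agent.P368.tens_mul]
    exact Circ.base _ (hw'.mul hw)
  | step k V hV F hF w' hw' =>
    rw [mul_assoc, Vale.Agent.P368.tens_mul]
    exact Circ.step k _ hV F hF _ (hw'.mul hw)

theorem Circ.layer_mul {k : ℕ} {V : Op ι} (hV : Circ k V) (F : Finset (Finset ι))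
    (hF : (F : Set (Finset ι)).PairwiseDisjoint id) : Circ (k + 1) (layerCZ F * V) := by
  induction hV with
  | base w hw =>
    have h := Circ.step 0 _ (Circ.base _ (IsTU.one (ι := ι))) F hF w hw
    rwa [tens_one, one_mul] at h
  | step k V hV F' hF' w hw ih =>
    rw [← mul_assoc, ← mul_assoc]
    exact Circ.step (k + 1) _ ih F' hF' w hw

theorem Circ.star {k : ℕ} {V : Op ι} (hV : Circ k V) : Circ k Vᴴ := by
  induction hV with
  | base w hw =>
    rw [tens_star]
    exact Circ.base _ hw.star
  | step k V hV F hF w hw ih =>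
    rw [Matrix.conjTranspose_mul, Matrix.conjTranspose_mul, layerCZ_star, tens_star]
    exact (ih.layer_mul F hF).tens_mul hw.star

/-! ### operators supported on a set of qubits -/

theorem suppOn_tens {R : Finset ι} {v : ι → Matrix Bool Bool ℂ} (hv : ∀ i, i ∉ R → v i = 1) :
    SuppOn R (tens v) := by
  intro u hu
  show tens v * tens u = tens u * tens v
  rw [tens_mul, tens_mul]
  congr 1
  funext i
  by_cases hi : i ∈ R
  · rw [hu i hi, mul_one, one_mul]
  · rw [hv i hi, mul_one, one_mul]

theorem suppOn_nAll (R : Finset ι) : SuppOn R (nAll R : Op ι) := by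
  rw [nAll_eq_tens]
  exact suppOn_tens fun i hi => if_neg hi

theorem SuppOn.conj {R : Finset ι} {A : Op ι} (hA : SuppOn R A) {w : ι → Matrix Bool Bool ℂ}
    (hw : IsTU w) : SuppOn R (tens w * A * (tens w)ᴴ) := by
  intro u hu
  have h1 : (tens w)ᴴ * tens w = 1 := hw.conj_mul
  have h2 : tens w * (tens w)ᴴ = 1 := hw.mul_conj
  have h3 : Commute A ((tens w)ᴴ * tens u * tens w) := by
    rw [tens_star, tens_mul, tens_mul]
    refine hA _ fun i hi => ?_
    rw [hu i hi, mul_one]
    exact (Matrix.mem_unitaryGroup_iff'.1 (hw i))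
  have h4 : A * ((tens w)ᴴ * tens u * tens w) = ((tens w)ᴴ * tens u * tens w) * A := h3
  show tens w * A * (tens w)ᴴ * tens u = tens u * (tens w * A * (tens w)ᴴ)
  calc tens w * A * (tens w)ᴴ * tens u
      = tens w * (A * ((tens w)ᴴ * tens u * tens w)) * (tens w)ᴴ := by
        simp only [mul_assoc, h2, mul_one]
    _ = tens w * (((tens w)ᴴ * tens u * tens w) * A) * (tens w)ᴴ := by rw [h4]
    _ = (tens w * (tens w)ᴴ) * (tens u * (tens w * A * (tens w)ᴴ)) := by
        simp only [mul_assoc]
    _ = tens u * (tens w * A * (tens w)ᴴ) := by rw [h2, one_mul]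

theorem SuppOn.commute_nAll {R S : Finset ι} {A : Op ι} (hA : SuppOn R A) (h : Disjoint S R) :
    Commute A (nAll S) := by
  rw [nAll_eq_tens]
  refine hA _ fun i hi => ?_
  rw [if_neg]
  intro hS
  exact Finset.disjoint_left.1 h hS hi

/-- the matrix entries of an operator supported on `R` vanish off the diagonal outside `R` -/
theorem SuppOn.apply_eq_zero {R : Finset ι} {A : Op ι} (hA : SuppOn R A) {x z : ι → Bool} {i : ι}
    (hi : i ∉ R) (hxz : x i ≠ z i) : A x z = 0 := by
  have h2 := hA (fun j => if j ∈ ({i} : Finset ι) then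
    Matrix.diagonal (fun b : Bool => if b then (1:ℂ) else 0) else 1) (by
      intro j hj
      rw [if_neg]
      intro h
      rw [Finset.mem_singleton] at h
      exact hi (h ▸ hj))
  rw [← nAll_eq_tens] at h2
  have h3 : (A * nAll {i}) x z = (nAll {i} * A) x z := by
    have h4 : A * nAll {i} = nAll {i} * A := h2
    rw [h4]
  simp only [nAll, Matrix.mul_diagonal, Matrix.diagonal_mul, Finset.mem_singleton, forall_eq] at h3
  cases hx : x i <;> cases hz : z i <;> simp_all

/-- an operator supported on `R` changes the weight by at most `|R|` -/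
theorem SuppOn.Pge_mul_Ez {R T : Finset ι} {A : Op ι} (hA : SuppOn R A) {y : ℝ}
    (hy : (R.card : ℝ) < y) : Pge T y * A * Ez T = 0 := by
  ext x z
  rw [Pge, Ez, Matrix.mul_diagonal, Matrix.diagonal_mul, Matrix.zero_apply]
  by_cases h1 : y ≤ (wt T x : ℝ)
  · by_cases h2 : wt T z = 0
    · have h3 : ∃ i, i ∉ R ∧ x i ≠ z i := by
        by_contra hcon
        push Not at hcon
        have h4 : (T.filter fun i => x i = true) ⊆ R := by
          intro i hi
          rw [Finset.mem_filter] at hi
          by_contra hR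
          have h5 : z i = true := by rw [← hcon i hR]; exact hi.2
          have h6 : z i = false := (wt_eq_zero_iff T z).1 h2 i hi.1
          rw [h5] at h6
          exact absurd h6 (by simp)
        have h8 : (wt T x : ℝ) ≤ R.card := by
          exact_mod_cast Finset.card_le_card h4
        linarith
      obtain ⟨i, hi, hxz⟩ := h3
      rw [hA.apply_eq_zero hi hxz]
      ring
    · rw [if_neg h2, mul_zero]
  · rw [if_neg h1, zero_mul, zero_mul]

/-! ### norms -/

theorem norm_Pge_le (T : Finset ι) (y : ℝ) : ‖(Pge T y : Op ι)‖ ≤ 1 :=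
  norm_diagonal_le_one fun x => by split_ifs <;> simp

theorem norm_Ez_le (T : Finset ι) : ‖(Ez T : Op ι)‖ ≤ 1 :=
  norm_diagonal_le_one fun x => by split_ifs <;> simp

theorem norm_nAll_le (S : Finset ι) : ‖(nAll S : Op ι)‖ ≤ 1 :=
  norm_diagonal_le_one fun x => by split_ifs <;> simp

theorem Ez_mul_Ez (T : Finset ι) : (Ez T : Op ι) * Ez T = Ez T := by
  unfold Ez
  rw [Matrix.diagonal_mul_diagonal]
  congr 1
  funext x
  split_ifs <;> simp

end Vale.Agent.P368
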